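import Vale.Agent.P165.EX.Trans.Frames

/-!
# Transversality stated for subspaces

If finitely many pairs of subspaces of complementary dimensions can be made transversal at once by
one element, then finitely many pairs of full rank matrices are paired nonsingularly at once.
-/

namespace Vale.Agent.P165.EX

open Matrix Finset
open scoped MatrixGroups

variable {k : Type} [NontriviallyNormedField k] {n : ℕ} {Γ : Type} [Group Γ]

theorem FullRow.le {j : ℕ} {A : Matrix (Fin j) (Fin n) k} (h : FullRow A) : j ≤ n := by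
  obtain ⟨s, -⟩ := h
  simpa using Fintype.card_le_of_embedding (emb s).toEmbedding

/-- Finitely many pairs of complementary dimensions can be made transversal by one element. -/
theorem trans_of_transversal (ρ : Γ →* SL(n, k))
    (h : ∀ (N : ℕ) (U W : Fin N → Submodule k (Fin n → k)),
      (∀ i, Module.finrank k (U i) + Module.finrank k (W i) = n) →
      ∃ g : Γ, ∀ i, Disjoint (U i)
        ((W i).map (Matrix.mulVecLin (ρ g : Matrix (Fin n) (Fin n) k)))) :
    Trans ρ := by
  classical
  intro m deg A B hA hB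
  have hinj : ∀ i, Function.Injective (B i).mulVecLin := by
    intro i
    obtain ⟨s, hs⟩ := hB i
    rw [← transpose_submatrix, det_transpose] at hs
    refine (injective_iff_map_eq_zero _).2 fun y hy => ?_
    exact eq_zero_of_mulVec_eq_zero hs (funext fun l => congrFun (show B i *ᵥ y = 0 from hy) (emb s l))
  have hsurj : ∀ i, LinearMap.range (A i).mulVecLin = ⊤ := by
    intro i
    obtain ⟨s, hs⟩ := hA i
    refine LinearMap.range_eq_top.2 fun z => ?_
    have hu : IsUnit ((A i).submatrix id (emb s)) :=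
      (Matrix.isUnit_iff_isUnit_det _).2 (isUnit_iff_ne_zero.2 hs)
    obtain ⟨y, hy⟩ := Matrix.mulVec_surjective_iff_isUnit.2 hu z
    refine ⟨∑ l, Pi.single (emb s l) (y l), ?_⟩
    rw [mulVecLin_apply, mulVec_sum, ← hy]
    funext a
    simp [Finset.sum_apply, mulVec, dotProduct, submatrix_apply, mul_comm]
  obtain ⟨g, hg⟩ := h m (fun i => LinearMap.ker (A i).mulVecLin)
    (fun i => LinearMap.range (B i).mulVecLin) fun i => by
      have h1 := (A i).mulVecLin.finrank_range_add_finrank_ker
      rw [hsurj i, finrank_top] at h1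
      rw [LinearMap.finrank_range_of_inj (hinj i)]
      simp only [Module.finrank_fin_fun] at h1 ⊢
      omega
  refine ⟨g, fun i h0 => ?_⟩
  obtain ⟨y, hy, hMy⟩ := exists_mulVec_eq_zero_iff.2 h0
  refine hy (hinj i ?_)
  rw [map_zero]
  have hz : (ρ g : Matrix (Fin n) (Fin n) k) *ᵥ (B i *ᵥ y) = 0 :=
    Submodule.disjoint_def.1 (hg i) _
      (LinearMap.mem_ker.2 (by rw [mulVecLin_apply, mulVec_mulVec, mulVec_mulVec]; exact hMy))
      ⟨_, LinearMap.mem_range_self _ y, rfl⟩
  rw [mulVecLin_apply]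
  calc B i *ᵥ y = ((ρ g⁻¹ : Matrix (Fin n) (Fin n) k) * (ρ g : Matrix (Fin n) (Fin n) k)) *ᵥ
        (B i *ᵥ y) := by rw [← coe_mul, inv_mul_cancel, coe_one, one_mulVec]
    _ = 0 := by rw [← mulVec_mulVec, hz, mulVec_zero]

/-- A group which can make pairs transversal in degree at least two is infinite. -/
theorem infinite_of_trans (hn : 2 ≤ n) (ρ : Γ →* SL(n, k)) (htr : Trans ρ) : Infinite Γ := by
  classical
  refine not_finite_iff_infinite.1 fun hfinite => ?_
  obtain ⟨e⟩ : Nonempty (Γ ≃ Fin (Nat.card Γ)) := ⟨Finite.equivFin Γ⟩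
  set a : Fin n := ⟨0, by omega⟩
  set b : Fin n := ⟨1, by omega⟩
  have hab : a ≠ b := fun h => by simpa [a, b] using congrArg Fin.val h
  set v : Fin (Nat.card Γ) → Fin n → k := fun l =>
    (ρ (e.symm l)⁻¹ : Matrix (Fin n) (Fin n) k) *ᵥ Pi.single b 1
  have hv : ∀ l, (ρ (e.symm l) : Matrix (Fin n) (Fin n) k) *ᵥ v l = Pi.single b 1 := fun l => by
    rw [mulVec_mulVec, ← coe_mul, mul_inv_cancel, coe_one, one_mulVec]
  have full : ∀ w : Fin n → k, w ≠ 0 → FullRow (Matrix.of fun _ : Fin 1 => w) := by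
    intro w hw
    obtain ⟨i, hi⟩ := Function.ne_iff.1 hw
    obtain ⟨s, hs⟩ : ∃ s : Sub n 1, emb s 0 = i := by
      refine ⟨⟨{i}, Finset.card_singleton i⟩, ?_⟩
      obtain ⟨x, hx⟩ := (mem_iff (⟨{i}, Finset.card_singleton i⟩ : Sub n 1) i).1
        (Finset.mem_singleton_self i)
      rwa [Fin.fin_one_eq_zero x] at hx
    refine ⟨s, ?_⟩
    rw [det_fin_one, submatrix_apply, Matrix.of_apply, hs]
    exact hi
  obtain ⟨g, hg⟩ := htr (Nat.card Γ) (fun _ => 1) (fun _ => Matrix.of fun _ : Fin 1 => Pi.single a 1)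
    (fun l => (Matrix.of fun _ : Fin 1 => v l)ᵀ) (fun _ => full _ (by simp))
    (fun l => by
      rw [transpose_transpose]
      refine full _ fun h0 => ?_
      have := hv l
      rw [h0, mulVec_zero] at this
      simpa using congrFun this b)
  refine hg (e g) ?_
  rw [det_fin_one, Matrix.mul_assoc, Matrix.mul_apply]
  have : ∀ x, ((ρ g : Matrix (Fin n) (Fin n) k) * (Matrix.of fun _ : Fin 1 => v (e g))ᵀ) x 0 =
      (Pi.single b 1 : Fin n → k) x := fun x => by
    rw [← hv (e g), Equiv.symm_apply_apply]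
    rfl
  simp only [this, Matrix.of_apply]
  exact sum_eq_zero fun j _ => by
    rcases eq_or_ne j b with rfl | h <;> simp [*, hab.symm]

end Vale.Agent.P165.EX
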