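import Vale.Agent.P165.EX.Child

/-!
# Frames from transversality of subspaces

Uniform frames need of the group only that finitely many pairs of subspaces of complementary
dimensions can be made transversal at once: the rows and the columns of compounds are decomposable.
-/

namespace Vale.Agent.P165.EX

open Matrix Finset
open scoped Matrix.Norms.Elementwise MatrixGroups

variable {k : Type} [NontriviallyNormedField k] {n : ℕ} {Γ : Type} [Group Γ] (ρ : Γ →* SL(n, k))

/-- `A` has full rank: some maximal minor is not zero. -/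
def FullRow {k : Type} [Field k] {n j : ℕ} (A : Matrix (Fin j) (Fin n) k) : Prop :=
  ∃ s : Sub n j, (A.submatrix id (emb s)).det ≠ 0

/-- Finitely many pairs of full rank `j × n` and `n × j` matrices are paired nonsingularly by one
element: the subspaces they give can be made transversal at once. -/
def Trans : Prop :=
  ∀ (m : ℕ) (deg : Fin m → ℕ) (A : ∀ i, Matrix (Fin (deg i)) (Fin n) k)
    (B : ∀ i, Matrix (Fin n) (Fin (deg i)) k), (∀ i, FullRow (A i)) → (∀ i, FullRow (B i)ᵀ) →
      ∃ g : Γ, ∀ i, (A i * (ρ g : Matrix (Fin n) (Fin n) k) * B i).det ≠ 0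

/-- The chosen maximal minor is the identity and no entry is larger. -/
def Normal {j : ℕ} (s : Sub n j) (A : Matrix (Fin j) (Fin n) k) : Prop :=
  A.submatrix id (emb s) = 1 ∧ ∀ a b, ‖A a b‖ ≤ 1

theorem Normal.fullRow {j : ℕ} {s : Sub n j} {A : Matrix (Fin j) (Fin n) k} (h : Normal s A) :
    FullRow A :=
  ⟨s, by rw [h.1, det_one]; exact one_ne_zero⟩

theorem isCompact_normal [ProperSpace k] {j : ℕ} (s : Sub n j) :
    IsCompact {A : Matrix (Fin j) (Fin n) k | Normal s A} := by
  refine ((isCompact_univ_pi fun _ : Fin j => isCompact_univ_pi fun _ : Fin n =>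
    isCompact_closedBall (0 : k) 1) : IsCompact {A : Matrix (Fin j) (Fin n) k |
      A ∈ Set.univ.pi fun _ : Fin j => Set.univ.pi fun _ : Fin n => Metric.closedBall (0 : k) 1}).of_isClosed_subset ?_ fun A hA => ?_
  · simp only [Normal, Set.ofPred_and, Set.ofPred_forall]
    refine IsClosed.inter (isClosed_eq (by fun_prop) continuous_const)
      (isClosed_iInter fun a => isClosed_iInter fun b => isClosed_le (by fun_prop) continuous_const)
  · exact fun a _ b _ => mem_closedBall_zero_iff.2 (hA.2 a b)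

/-- The rows of the largest minor of one order, normalised. -/
theorem exists_normal_rows {j : ℕ} (Z : Matrix (Fin n) (Fin n) k) (hZ : cmp j Z ≠ 0) :
    ∃ (s t : Sub n j) (A : Matrix (Fin j) (Fin n) k), Normal t A ∧
      (Z.submatrix (emb s) (emb t)).det ≠ 0 ∧ ‖cmp j Z‖ = ‖(Z.submatrix (emb s) (emb t)).det‖ ∧
      Z.submatrix (emb s) id = Z.submatrix (emb s) (emb t) * A := by
  classical
  obtain ⟨e₀⟩ : Nonempty (Sub n j) := by
    by_contra h
    rw [not_nonempty_iff] at h
    exact hZ (Subsingleton.elim _ _)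
  obtain ⟨⟨s, t⟩, -, hmax⟩ := exists_max_image (univ : Finset (Sub n j × Sub n j))
    (fun e => ‖cmp j Z e.1 e.2‖) ⟨(e₀, e₀), mem_univ _⟩
  set T := Z.submatrix (emb s) (emb t) with hT
  have hnorm : ‖cmp j Z‖ = ‖T.det‖ :=
    le_antisymm ((Matrix.norm_le_iff (norm_nonneg _)).2 fun a b => hmax (a, b) (mem_univ _))
      (norm_entry_le_entrywise_sup_norm (cmp j Z) (i := s) (j := t))
  have hT0 : T.det ≠ 0 := norm_ne_zero_iff.1 (hnorm ▸ norm_ne_zero_iff.2 hZ)
  have hu : IsUnit T.det := isUnit_iff_ne_zero.2 hT0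
  refine ⟨s, t, T⁻¹ * Z.submatrix (emb s) id, ⟨?_, fun a b => ?_⟩, hT0, hnorm, ?_⟩
  · exact (show (T⁻¹ * Z.submatrix (emb s) id).submatrix id (emb t) = T⁻¹ * T from rfl).trans
      (nonsing_inv_mul T hu)
  · have h1 : T.det * (T⁻¹ * Z.submatrix (emb s) id) a b =
        (T.adjugate *ᵥ fun l => Z (emb s l) b) a := by
      rw [Matrix.mul_apply, mul_sum, mulVec, dotProduct]
      refine sum_congr rfl fun l _ => ?_
      rw [← mul_assoc, Matrix.inv_def, Matrix.smul_apply, smul_eq_mul, Ring.inverse_eq_inv',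
        ← mul_assoc, mul_inv_cancel₀ hT0, one_mul]
      rfl
    have h2 : ‖(T.adjugate *ᵥ fun l => Z (emb s l) b) a‖ ≤ ‖cmp j Z‖ := by
      rw [← cramer_eq_adjugate_mulVec, cramer_apply]
      set f : Fin j → Fin n := Function.update (emb t) a b
      rw [show T.updateCol a (fun l => Z (emb s l) b) = Z.submatrix (emb s) f by
        ext u v
        simp only [f, hT, updateCol_apply, submatrix_apply, Function.update_apply]
        split_ifs <;> rfl]
      by_cases hf : Function.Injective f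
      · exact minor_le Z _ _ (emb s).injective hf
      · obtain ⟨u, v, huv, hne⟩ := Function.not_injective_iff.1 hf
        rw [det_zero_of_column_eq hne fun l => by simp [huv], norm_zero]
        exact norm_nonneg _
    rw [← h1, norm_mul, hnorm] at h2
    exact le_of_mul_le_mul_left (h2.trans_eq (mul_one _).symm) (norm_pos_iff.2 hT0)
  · rw [← hT, ← Matrix.mul_assoc, mul_nonsing_inv T hu, Matrix.one_mul]

omit [Group Γ] in
/-- Uniform frames for compounds of finitely many matrices over varying fields. -/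
theorem exists_frames_var {κ : Type} [Fintype κ] {E : κ → Type} [∀ i, NontriviallyNormedField (E i)]
    [∀ i, ProperSpace (E i)] {dim : κ → ℕ} (deg : κ → ℕ)
    (φ : ∀ i, Γ → Matrix (Fin (dim i)) (Fin (dim i)) (E i))
    (htr : ∀ (A : ∀ i, Matrix (Fin (deg i)) (Fin (dim i)) (E i))
      (B : ∀ i, Matrix (Fin (dim i)) (Fin (deg i)) (E i)), (∀ i, FullRow (A i)) →
        (∀ i, FullRow (B i)ᵀ) → ∃ g, ∀ i, (A i * φ i g * B i).det ≠ 0) :
    ∃ (F : Finset Γ) (c : ℝ), 0 < c ∧ ∀ Z H : ∀ i, Matrix (Fin (dim i)) (Fin (dim i)) (E i),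
      (∀ i, cmp (deg i) (Z i) ≠ 0) → (∀ i, cmp (deg i) (H i) ≠ 0) → ∃ σ ∈ F, ∀ i,
        c * (‖cmp (deg i) (Z i)‖ * ‖cmp (deg i) (H i)‖) ≤
          ‖cmp (deg i) (Z i * φ i σ * H i)‖ := by
  classical
  let Pair := (∀ i, Matrix (Fin (deg i)) (Fin (dim i)) (E i)) × (∀ i, Matrix (Fin (deg i)) (Fin (dim i)) (E i))
  let K : Set Pair := ⋃ s : (∀ i, Sub (dim i) (deg i)) × (∀ i, Sub (dim i) (deg i)),
    (Set.univ.pi fun i => {A | Normal (s.1 i) A}) ×ˢ (Set.univ.pi fun i => {A | Normal (s.2 i) A})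
  have hK : IsCompact K := isCompact_iUnion fun s =>
    (isCompact_univ_pi fun i => isCompact_normal (s.1 i)).prod
      (isCompact_univ_pi fun i => isCompact_normal (s.2 i))
  let f : Γ → ((∀ i, Matrix (Fin (deg i)) (Fin (dim i)) (E i)) × (∀ i, Matrix (Fin (deg i)) (Fin (dim i)) (E i))) → κ → ℝ := fun g x i =>
    ‖(x.1 i * φ i g * (x.2 i)ᵀ).det‖
  have hfc : ∀ g i, Continuous fun x => f g x i := fun g i => by
    fun_prop
  let U : Γ × ℕ → Set Pair := fun gm => {x | ∀ i, 1 / ((gm.2 : ℝ) + 1) < f gm.1 x i}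
  have hUo : ∀ gm, IsOpen (U gm) := fun gm => by
    simp only [U, Set.ofPred_forall]
    exact isOpen_iInter_of_finite fun i => isOpen_lt continuous_const (hfc _ i)
  have hcov : K ⊆ ⋃ gm, U gm := by
    intro x hx
    obtain ⟨s, hs⟩ := Set.mem_iUnion.1 hx
    replace hs : (∀ i, Normal (s.1 i) (x.1 i)) ∧ ∀ i, Normal (s.2 i) (x.2 i) :=
      ⟨fun i => hs.1 i trivial, fun i => hs.2 i trivial⟩
    obtain ⟨g, hg⟩ := htr x.1 (fun i => (x.2 i)ᵀ) (fun i => (hs.1 i).fullRow)
      (fun i => by rw [transpose_transpose]; exact (hs.2 i).fullRow)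
    have hg' : ∀ i, 0 < f g x i := fun i => norm_pos_iff.2 (hg i)
    choose m hm using fun i => exists_nat_one_div_lt (hg' i)
    refine Set.mem_iUnion.2 ⟨(g, univ.sup m), fun i => lt_of_le_of_lt ?_ (hm i)⟩
    gcongr
    exact Finset.le_sup (f := m) (mem_univ i)
  obtain ⟨T, hT⟩ := hK.elim_finite_subcover U hUo hcov
  refine ⟨T.image Prod.fst, 1 / (((T.image Prod.snd).sup id : ℕ) + 1), by positivity,
    fun Z H hZ hH => ?_⟩
  choose s t A hA hTd hTn hTA using fun i => exists_normal_rows (Z i) (hZ i)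
  choose s' t' B hB hT'd hT'n hT'B using fun i => exists_normal_rows (H i)ᵀ (j := deg i) (by
    intro h0
    refine hH i (Matrix.ext fun a b => ?_)
    have := congrFun (congrFun h0 b) a
    simp only [cmp, Matrix.of_apply, Matrix.zero_apply] at this ⊢
    rwa [← det_transpose, transpose_submatrix])
  have hnH : ∀ i, ‖cmp (deg i) (H i)ᵀ‖ = ‖cmp (deg i) (H i)‖ := fun i => by
    rw [← norm_transpose]
    refine congrArg norm ?_
    ext a b
    simp only [cmp, transpose_apply, Matrix.of_apply]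
    rw [← det_transpose, transpose_submatrix, transpose_transpose]
  have hx : ((A, B) : Pair) ∈ K :=
    Set.mem_iUnion.2 ⟨(t, t'), Set.mem_prod.2 ⟨fun i _ => hA i, fun i _ => hB i⟩⟩
  obtain ⟨gm, hgm, hbd⟩ := Set.mem_iUnion₂.1 (hT hx)
  refine ⟨gm.1, mem_image_of_mem _ hgm, fun i => ?_⟩
  have hle : 1 / ((((T.image Prod.snd).sup id : ℕ) : ℝ) + 1) ≤ 1 / ((gm.2 : ℝ) + 1) := by
    gcongr
    exact Finset.le_sup (f := id) (mem_image_of_mem Prod.snd hgm)
  refine (mul_le_mul_of_nonneg_right (hle.trans (hbd i).le) (by positivity)).trans ?_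
  set g := φ i gm.1
  set Tz := (Z i).submatrix (emb (s i)) (emb (t i))
  set Th := (H i)ᵀ.submatrix (emb (s' i)) (emb (t' i))
  have h1 : (Z i * g * H i).submatrix (emb (s i)) (emb (s' i)) = Tz * (A i * g * (B i)ᵀ) * Thᵀ := by
    have hb : (H i).submatrix id (emb (s' i)) = (B i)ᵀ * Thᵀ := by
      rw [← transpose_mul, ← hT'B i]; rfl
    calc (Z i * g * H i).submatrix (emb (s i)) (emb (s' i))
        = (Z i).submatrix (emb (s i)) id * g * (H i).submatrix id (emb (s' i)) := rfl
      _ = _ := by rw [hTA i, hb]; simp only [Matrix.mul_assoc]; rfl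
  have h2 : ‖((Z i * g * H i).submatrix (emb (s i)) (emb (s' i))).det‖ ≤
      ‖cmp (deg i) (Z i * g * H i)‖ :=
    minor_le _ _ _ (emb (s i)).injective (emb (s' i)).injective
  rw [h1, det_mul, det_mul, det_transpose, norm_mul, norm_mul, ← hTn i, ← hT'n i, hnH i] at h2
  exact (le_of_eq (by simp only [f]; ring)).trans h2

/-- Uniform frames for compounds of finitely many matrices. -/
theorem exists_frames_trans [ProperSpace k] (htr : Trans ρ) {κ : Type} [Fintype κ] (deg : κ → ℕ) :
    ∃ (F : Finset Γ) (c : ℝ), 0 < c ∧ ∀ Z H : κ → Matrix (Fin n) (Fin n) k,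
      (∀ i, cmp (deg i) (Z i) ≠ 0) → (∀ i, cmp (deg i) (H i) ≠ 0) → ∃ σ ∈ F, ∀ i,
        c * (‖cmp (deg i) (Z i)‖ * ‖cmp (deg i) (H i)‖) ≤
          ‖cmp (deg i) (Z i * (ρ σ : Matrix (Fin n) (Fin n) k) * H i)‖ :=
  exists_frames_var deg _ fun A B hA hB => by
    set e := Fintype.equivFin κ
    obtain ⟨g, hg⟩ := htr _ (fun l => deg (e.symm l)) (fun l => A (e.symm l))
      (fun l => B (e.symm l)) (fun l => hA _) (fun l => hB _)
    exact ⟨g, fun i => by obtain ⟨l, rfl⟩ := e.symm.surjective i; exact hg l⟩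

/-- The embedding of `j` coordinates on one set of indices. -/
def pad (K : Type) [Field K] {j : ℕ} (s : Sub n j) : Matrix (Fin n) (Fin j) K :=
  (1 : Matrix (Fin n) (Fin n) K).submatrix id (emb s)

/-- A minor of an embedded matrix. -/
theorem det_pad_mul {j : ℕ} (s a b : Sub n j) (M : Matrix (Fin j) (Fin n) k) :
    ((pad k s * M).submatrix (emb a) (emb b)).det =
      ((pad k s).submatrix (emb a) id).det *
        (M.submatrix id (emb b)).det := by
  rw [submatrix_mul _ _ _ id _ Function.bijective_id, det_mul]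

theorem cmp_pad_ne {j : ℕ} {s : Sub n j} {A : Matrix (Fin j) (Fin n) k}
    (hs : (A.submatrix id (emb s)).det ≠ 0) : cmp j (pad k s * A) ≠ 0 := fun h => hs (by
  have e := congrFun (congrFun h s) s
  simp only [cmp, Matrix.of_apply, Matrix.zero_apply, det_pad_mul] at e
  rwa [show ((pad k s).submatrix (emb s) id) = 1 by
    ext u v; simp [pad, Matrix.one_apply, (emb s).injective.eq_iff], det_one, one_mul] at e)

/-- Full rank is kept by invertible matrices. -/
theorem FullRow.mul {j : ℕ} {A : Matrix (Fin j) (Fin n) k} (hA : FullRow A)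
    {g g' : Matrix (Fin n) (Fin n) k} (hg : g * g' = 1) : FullRow (A * g) := by
  obtain ⟨s, hs⟩ := hA
  by_contra h
  refine cmp_pad_ne hs ?_
  have h0 : cmp j (pad k s * (A * g)) = 0 := by
    ext a b
    simp only [cmp, Matrix.of_apply, Matrix.zero_apply, det_pad_mul]
    rw [not_exists_not.1 h b, mul_zero]
  rw [show pad k s * A = pad k s * (A * g) * g' by simp only [Matrix.mul_assoc, hg, Matrix.mul_one],
    cmp_mul, h0, Matrix.zero_mul]

/-- Finitely many elements suffice to pair all full rank matrices of finitely many given orders. -/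
theorem exists_syndetic [ProperSpace k] (htr : Trans ρ) {κ : Type} [Fintype κ] (deg : κ → ℕ) :
    ∃ F : Finset Γ, ∀ (A : ∀ i, Matrix (Fin (deg i)) (Fin n) k)
      (B : ∀ i, Matrix (Fin n) (Fin (deg i)) k), (∀ i, FullRow (A i)) → (∀ i, FullRow (B i)ᵀ) →
        ∃ σ ∈ F, ∀ i, (A i * (ρ σ : Matrix (Fin n) (Fin n) k) * B i).det ≠ 0 := by
  obtain ⟨F, c, hc, hF⟩ := exists_frames_trans ρ htr deg
  refine ⟨F, fun A B hA hB => ?_⟩
  choose s hs using hA
  choose t ht using hB
  have hH : ∀ i, cmp (deg i) (B i * (pad k (t i))ᵀ) ≠ 0 := fun i h =>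
    cmp_pad_ne (ht i) (Matrix.ext fun a b => by
      have e := congrFun (congrFun h b) a
      simp only [cmp, Matrix.of_apply, Matrix.zero_apply] at e ⊢
      rwa [← det_transpose, transpose_submatrix, transpose_mul, transpose_transpose])
  obtain ⟨σ, hσ, hσ'⟩ := hF (fun i => pad k (s i) * A i) _ (fun i => cmp_pad_ne (hs i)) hH
  refine ⟨σ, hσ, fun i h0 => norm_pos_iff.1 ((mul_pos hc (mul_pos
    (norm_pos_iff.2 (cmp_pad_ne (hs i))) (norm_pos_iff.2 (hH i)))).trans_le (hσ' i)) ?_⟩
  ext a b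
  have e : pad k (s i) * A i * (ρ σ : Matrix (Fin n) (Fin n) k) * (B i * (pad k (t i))ᵀ) =
      pad k (s i) * (A i * (ρ σ : Matrix (Fin n) (Fin n) k) * B i * (pad k (t i))ᵀ) := by
    simp only [Matrix.mul_assoc]
  simp only [cmp, Matrix.of_apply, Matrix.zero_apply, e, det_pad_mul]
  rw [submatrix_mul _ _ _ id _ Function.bijective_id, det_mul, submatrix_id_id, h0, zero_mul,
    mul_zero]

end Vale.Agent.P165.EX
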