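import Vale.Agent.P165.EX.Trans.Frames

/-!
# Transversality from transvections

A singular pairing matrix gains rank by one transvection, and products of transvections are joined
by polynomial paths. So every subgroup dense among such products can make finitely many pairs of
subspaces transversal at once: in the special linear and in the symplectic group.
-/

namespace Vale.Agent.P165.EX

open Matrix Finset
open scoped MatrixGroups

variable {k : Type} [Field k] {n : ℕ}

/-- The product of the transvections `1 + u wᵀ` of a list. -/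
def prodT (L : List ((Fin n → k) × (Fin n → k))) : Matrix (Fin n) (Fin n) k :=
  (L.map fun e => 1 + vecMulVec e.1 e.2).prod

/-- Directions of transvections: orthogonal pairs, closed under scaling. -/
structure Moves (k : Type) [Field k] (n : ℕ) where
  /-- The allowed pairs. -/
  ok : (Fin n → k) → (Fin n → k) → Prop
  orth : ∀ u w, ok u w → w ⬝ᵥ u = 0
  smul : ∀ (t : k) u w, ok u w → ok (t • u) w
  move : ∀ a z : Fin n → k, a ≠ 0 → z ≠ 0 → ∃ u w, ok u w ∧ a ⬝ᵥ u ≠ 0 ∧ w ⬝ᵥ z ≠ 0

variable (P : Moves k n)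

/-- Lists of allowed transvections. -/
def Moves.Valid (L : List ((Fin n → k) × (Fin n → k))) : Prop := ∀ e ∈ L, P.ok e.1 e.2

/-- The list of the inverse. -/
def invT (L : List ((Fin n → k) × (Fin n → k))) : List ((Fin n → k) × (Fin n → k)) :=
  (L.map fun e => (-e.1, e.2)).reverse

theorem invT_valid {L : List ((Fin n → k) × (Fin n → k))} (h : P.Valid L) : P.Valid (invT L) := by
  intro e he
  rw [invT, List.mem_reverse, List.mem_map] at he
  obtain ⟨e', he', rfl⟩ := he
  show P.ok (-e'.1) e'.2
  simpa using P.smul (-1) _ _ (h e' he')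

theorem prodT_append (L L' : List ((Fin n → k) × (Fin n → k))) :
    prodT (L ++ L') = prodT L * prodT L' := by
  simp [prodT]

theorem invT_mul {L : List ((Fin n → k) × (Fin n → k))} (h : P.Valid L) :
    prodT (invT L) * prodT L = 1 := by
  induction L with
  | nil => simp [prodT, invT]
  | cons e L ih =>
    have he : e.2 ⬝ᵥ e.1 = 0 := P.orth _ _ (h e List.mem_cons_self)
    have h1 : (1 + vecMulVec (-e.1) e.2) * (1 + vecMulVec e.1 e.2) = 1 := by
      have hz : vecMulVec e.1 e.2 * vecMulVec e.1 e.2 = (0 : Matrix (Fin n) (Fin n) k) := by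
        rw [vecMulVec_mul_vecMulVec, he, zero_smul]
        ext a b
        simp [vecMulVec_apply]
      rw [neg_vecMulVec, add_mul, one_mul, neg_mul, mul_add, mul_one, hz]
      abel
    have e1 : invT (e :: L) = invT L ++ [(-e.1, e.2)] := by simp [invT]
    have e2 : prodT (e :: L) = (1 + vecMulVec e.1 e.2) * prodT L := by simp [prodT]
    rw [e1, e2, prodT_append, Matrix.mul_assoc, ← Matrix.mul_assoc (prodT [(-e.1, e.2)])]
    rw [show prodT [(-e.1, e.2)] = 1 + vecMulVec (-e.1) e.2 by simp [prodT], h1, Matrix.one_mul]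
    exact ih fun x hx => h x (List.mem_cons_of_mem _ hx)

theorem prodT_det_ne {L : List ((Fin n → k) × (Fin n → k))} (h : P.Valid L) :
    (prodT L).det ≠ 0 := fun h0 => by
  have := congrArg det (invT_mul P h)
  rw [det_mul, h0, mul_zero, det_one] at this
  exact zero_ne_one this

/-- A product of transvections pairs two full rank matrices nonsingularly. -/
theorem exists_pair {j : ℕ} (A : Matrix (Fin j) (Fin n) k) (B : Matrix (Fin n) (Fin j) k)
    (hA : FullRow A) (hB : FullRow Bᵀ) : ∃ L, P.Valid L ∧ (A * prodT L * B).det ≠ 0 := by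
  classical
  suffices h : ∀ d L, P.Valid L →
      Module.finrank k (LinearMap.ker (A * prodT L * B).mulVecLin) ≤ d →
        ∃ L', P.Valid L' ∧ (A * prodT L' * B).det ≠ 0 from
    h _ [] (fun e he => absurd he List.not_mem_nil) le_rfl
  intro d
  induction d with
  | zero =>
    intro L hL hd
    refine ⟨L, hL, fun h0 => ?_⟩
    obtain ⟨y, hy, hMy⟩ := exists_mulVec_eq_zero_iff.2 h0
    have := Submodule.finrank_eq_zero.1 (Nat.le_zero.1 hd)
    exact hy ((Submodule.mem_bot k).1 (this ▸ (LinearMap.mem_ker.2 hMy)))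
  | succ d ih =>
    intro L hL hd
    by_cases h0 : (A * prodT L * B).det = 0
    swap
    · exact ⟨L, hL, h0⟩
    set g := prodT L
    set M := A * g * B with hM
    obtain ⟨y, hy, hMy⟩ := exists_mulVec_eq_zero_iff.2 h0
    obtain ⟨x, hx, hxM⟩ := exists_vecMul_eq_zero_iff.2 h0
    have ha : x ᵥ* A ≠ 0 := by
      obtain ⟨s, hs⟩ := hA
      intro he
      refine hs (exists_vecMul_eq_zero_iff.1 ⟨x, hx, funext fun l => ?_⟩)
      exact congrFun he (emb s l)
    have hBy : B *ᵥ y ≠ 0 := by
      obtain ⟨s, hs⟩ := hB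
      intro he
      refine hs ?_
      rw [← transpose_submatrix, det_transpose]
      exact exists_mulVec_eq_zero_iff.1 ⟨y, hy, funext fun l => congrFun he (emb s l)⟩
    have hz : g *ᵥ (B *ᵥ y) ≠ 0 := fun he => hBy (by
      calc B *ᵥ y = (prodT (invT L) * g) *ᵥ (B *ᵥ y) := by rw [invT_mul P hL, one_mulVec]
        _ = 0 := by rw [← mulVec_mulVec, he, mulVec_zero])
    obtain ⟨u, w, huw, hau, hwz⟩ := P.move _ _ ha hz
    have hL' : P.Valid ((u, w) :: L) := List.forall_mem_cons.2 ⟨huw, hL⟩
    refine ih _ hL' ?_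
    set b := w ᵥ* (g * B) with hb
    have hnew : A * prodT ((u, w) :: L) * B = M + vecMulVec (A *ᵥ u) b := by
      rw [show prodT ((u, w) :: L) = (1 + vecMulVec u w) * g by simp [prodT, g], hb, hM]
      simp only [Matrix.mul_add, Matrix.add_mul, Matrix.one_mul, ← mul_vecMulVec, ← vecMulVec_mul,
        Matrix.mul_assoc]
    have hlt : LinearMap.ker (A * prodT ((u, w) :: L) * B).mulVecLin < LinearMap.ker M.mulVecLin := by
      have hsub : ∀ v, (M + vecMulVec (A *ᵥ u) b) *ᵥ v = 0 → b ⬝ᵥ v = 0 ∧ M *ᵥ v = 0 := by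
        intro v hv
        have e : vecMulVec (A *ᵥ u) b *ᵥ v = (b ⬝ᵥ v) • (A *ᵥ u) := by
          ext i; simp [vecMulVec_mulVec, mul_comm]
        rw [add_mulVec, e] at hv
        have h1 := congrArg (x ⬝ᵥ ·) hv
        simp only [dotProduct_add, dotProduct_mulVec, hxM, zero_dotProduct, zero_add,
          dotProduct_smul, smul_eq_mul, dotProduct_zero] at h1
        have hbv : b ⬝ᵥ v = 0 := (mul_eq_zero.1 h1).resolve_right hau
        rw [hbv, zero_smul, add_zero] at hv
        exact ⟨hbv, hv⟩
      refine lt_of_le_of_ne (fun v hv => ?_) fun he => ?_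
      · rw [LinearMap.mem_ker, mulVecLin_apply, hnew] at hv
        exact LinearMap.mem_ker.2 (hsub v hv).2
      · have hy' : y ∈ LinearMap.ker (A * prodT ((u, w) :: L) * B).mulVecLin :=
          he ▸ LinearMap.mem_ker.2 hMy
        rw [LinearMap.mem_ker, mulVecLin_apply, hnew] at hy'
        refine hwz ?_
        rw [← (hsub y hy').1, hb, ← dotProduct_mulVec, ← mulVec_mulVec]
    have := Submodule.finrank_lt_finrank_of_lt hlt
    omega

/-- Finitely many pairs at once. -/
theorem exists_pairs [Infinite k] {m : ℕ} (deg : Fin m → ℕ)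
    (A : ∀ i, Matrix (Fin (deg i)) (Fin n) k) (B : ∀ i, Matrix (Fin n) (Fin (deg i)) k)
    (hA : ∀ i, FullRow (A i)) (hB : ∀ i, FullRow (B i)ᵀ) (s : Finset (Fin m)) :
    ∃ L, P.Valid L ∧ ∀ i ∈ s, (A i * prodT L * B i).det ≠ 0 := by
  classical
  induction s using Finset.induction_on with
  | empty => exact ⟨[], fun e he => absurd he List.not_mem_nil, fun i hi => absurd hi (notMem_empty i)⟩
  | insert a s ha ih =>
    obtain ⟨L, hL, hgood⟩ := ih
    obtain ⟨L', hL', hga⟩ := exists_pair P (A a) (B a) (hA a) (hB a)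
    set N := L' ++ invT L
    have hN : P.Valid N := fun e he => (List.mem_append.1 he).elim (hL' e) (invT_valid P hL e)
    let Lt : k → List ((Fin n → k) × (Fin n → k)) := fun t =>
      N.map (fun e => (t • e.1, e.2)) ++ L
    have hLt : ∀ t, P.Valid (Lt t) := fun t e he => by
      rcases List.mem_append.1 he with he | he
      · obtain ⟨e', he', rfl⟩ := List.mem_map.1 he
        exact P.smul t _ _ (hN e' he')
      · exact hL e he
    set Gp : Matrix (Fin n) (Fin n) (Polynomial k) :=
      (N.map fun e => 1 + vecMulVec (fun l => Polynomial.X * Polynomial.C (e.1 l))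
        (fun l => Polynomial.C (e.2 l))).prod * (prodT L).map Polynomial.C with hGp
    have hGe : ∀ t, Gp.map (Polynomial.evalRingHom t) = prodT (Lt t) := by
      intro t
      rw [hGp, Matrix.map_mul, prodT_append]
      congr 1
      · rw [← RingHom.mapMatrix_apply, map_list_prod, List.map_map, prodT, List.map_map]
        refine congrArg List.prod (List.map_congr_left fun e _ => ?_)
        ext a b
        simp [vecMulVec_apply, Matrix.one_apply, apply_ite (Polynomial.eval t)]
        ring
      · ext a b; simp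
    set p : Fin m → Polynomial k := fun i =>
      ((A i).map Polynomial.C * Gp * (B i).map Polynomial.C).det with hp
    have hpe : ∀ i t, (p i).eval t = (A i * prodT (Lt t) * B i).det := by
      intro i t
      rw [hp, ← Polynomial.coe_evalRingHom, RingHom.map_det, RingHom.mapMatrix_apply,
        Matrix.map_mul, Matrix.map_mul, hGe]
      congr 3 <;> (ext u v; simp)
    have h0 : prodT (Lt 0) = prodT L := by
      rw [prodT_append]
      suffices prodT (N.map fun e => ((0 : k) • e.1, e.2)) = 1 by rw [this, Matrix.one_mul]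
      rw [prodT, List.map_map]
      refine List.prod_eq_one fun M hM => ?_
      obtain ⟨e, -, rfl⟩ := List.mem_map.1 hM
      ext a b
      simp
    have h1 : prodT (Lt 1) = prodT L' := by
      simp only [Lt, one_smul, Prod.mk.eta, List.map_id']
      rw [prodT_append, prodT_append, Matrix.mul_assoc, invT_mul P hL, Matrix.mul_one]
    have hne : ∀ i ∈ insert a s, p i ≠ 0 := by
      intro i hi h
      rcases mem_insert.1 hi with rfl | hi
      · exact hga (by rw [← h1, ← hpe, h, Polynomial.eval_zero])
      · exact hgood i hi (by rw [← h0, ← hpe, h, Polynomial.eval_zero])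
    obtain ⟨t, ht⟩ : ∃ t : k, (∏ i ∈ insert a s, p i).eval t ≠ 0 := by
      by_contra! h
      exact prod_ne_zero_iff.2 hne (Polynomial.eq_zero_of_infinite_isRoot _
        (Set.infinite_univ.mono fun x _ => h x))
    rw [Polynomial.eval_prod] at ht
    exact ⟨Lt t, hLt t, fun i hi => by rw [← hpe]; exact prod_ne_zero_iff.1 ht i hi⟩

/-- The image is dense among the products of the allowed transvections. -/
def Moves.Dense {Γ : Type} [Group Γ] (ρ : Γ →* SL(n, k)) : Prop :=
  ∀ f : MvPolynomial (Fin n × Fin n) k,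
    (∀ g, MvPolynomial.eval (fun e => (ρ g : Matrix (Fin n) (Fin n) k) e.1 e.2) f = 0) →
      ∀ L, P.Valid L → MvPolynomial.eval (fun e => prodT L e.1 e.2) f = 0

/-- The pairs `u, w` with `w ⬝ u = 0`: all transvections. -/
def slMoves (hn : 2 ≤ n) : Moves k n where
  ok u w := w ⬝ᵥ u = 0
  orth _ _ h := h
  smul t u w h := by rw [dotProduct_smul, h, smul_zero]
  move a z ha hz := by
    classical
    obtain ⟨i, hi⟩ := Function.ne_iff.1 ha
    obtain ⟨l, hl⟩ : ∃ l, l ≠ i := by
      by_contra! h
      have := Fintype.card_le_one_iff.2 (fun a b => (h a).trans (h b).symm)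
      rw [Fintype.card_fin] at this
      omega
    -- a vector paired with `a`, not a multiple of `z`
    obtain ⟨u, hu, hns⟩ : ∃ u, a ⬝ᵥ u ≠ 0 ∧ ∃ p q, u p * z q - u q * z p ≠ 0 := by
      by_cases h : ∃ q, q ≠ i ∧ z q ≠ 0
      · obtain ⟨q, hq, hzq⟩ := h
        exact ⟨Pi.single i 1, by simpa using hi, i, q, by simpa [hq] using hzq⟩
      push Not at h
      have hzi : z i ≠ 0 := fun h0 => hz (funext fun q => by
        by_cases hq : q = i
        · rw [hq, h0]; rfl
        · rw [h q hq]; rfl)
      by_cases hal : a l = 0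
      · exact ⟨Pi.single i 1 + Pi.single l 1, by simpa [dotProduct_add, hal] using hi, l, i,
          by simpa [hl, hl.symm, h l hl] using hzi⟩
      · exact ⟨Pi.single l 1, by simpa using hal, l, i, by simpa [hl.symm] using hzi⟩
    obtain ⟨p, q, hpq⟩ := hns
    refine ⟨u, Pi.single q (u p) - Pi.single p (u q), ?_, hu, ?_⟩
    · rw [sub_dotProduct, single_dotProduct, single_dotProduct]; ring
    · rw [sub_dotProduct, single_dotProduct, single_dotProduct]
      exact hpq

/-- The pairs `(c v, Jᵀ v)`: transvections preserving an alternating nonsingular form. -/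
def formMoves (J : Matrix (Fin n) (Fin n) k) (hJ : J.det ≠ 0) (halt : ∀ v, v ⬝ᵥ (J *ᵥ v) = 0) :
    Moves k n where
  ok u w := ∃ (c : k) (v : Fin n → k), u = c • v ∧ w = v ᵥ* J
  orth u w := by
    rintro ⟨c, v, rfl, rfl⟩
    rw [dotProduct_smul, ← dotProduct_mulVec, halt, smul_zero]
  smul t u w := by
    rintro ⟨c, v, rfl, rfl⟩
    exact ⟨t * c, v, smul_smul t c v, rfl⟩
  move a z ha hz := by
    have hJz : J *ᵥ z ≠ 0 := fun h => hJ (exists_mulVec_eq_zero_iff.1 ⟨z, hz, h⟩)
    obtain ⟨i, hi⟩ := Function.ne_iff.1 ha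
    obtain ⟨l, hl⟩ := Function.ne_iff.1 hJz
    have key : ∃ v : Fin n → k, a ⬝ᵥ v ≠ 0 ∧ v ⬝ᵥ (J *ᵥ z) ≠ 0 := by
      by_cases h1 : (J *ᵥ z) i = 0
      · by_cases h2 : a l = 0
        · refine ⟨Pi.single i 1 + Pi.single l 1, ?_, ?_⟩
          · simpa [dotProduct_add, h2] using hi
          · simpa [add_dotProduct, h1] using hl
        · exact ⟨Pi.single l 1, by simpa using h2, by simpa using hl⟩
      · exact ⟨Pi.single i 1, by simpa using hi, by simpa using h1⟩
    obtain ⟨v, hv, hv'⟩ := key
    refine ⟨v, v ᵥ* J, ⟨1, v, (one_smul k v).symm, rfl⟩, hv, ?_⟩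
    rwa [← dotProduct_mulVec]

/-- A transvection of `formMoves` preserves the form. -/
theorem formMoves_preserves (J : Matrix (Fin n) (Fin n) k) (hJ : J.det ≠ 0)
    (halt : ∀ v, v ⬝ᵥ (J *ᵥ v) = 0) (hskew : Jᵀ = -J) {L : List ((Fin n → k) × (Fin n → k))}
    (hL : (formMoves J hJ halt).Valid L) : (prodT L)ᵀ * J * prodT L = J := by
  induction L with
  | nil => simp [prodT]
  | cons e L ih =>
    obtain ⟨c, v, hu, hw⟩ := hL e List.mem_cons_self
    have h1 : (1 + vecMulVec e.1 e.2)ᵀ * J * (1 + vecMulVec e.1 e.2) = J := by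
      rw [hu, hw, transpose_add, transpose_one, transpose_vecMulVec]
      have hr : J *ᵥ v = -(v ᵥ* J) := by
        rw [← mulVec_transpose, hskew, neg_mulVec, neg_neg]
      set r := v ᵥ* J with hrd
      have a1 : vecMulVec r (c • v) * J = c • vecMulVec r r := by
        rw [vecMulVec_mul, smul_vecMul, ← hrd]
        ext a b
        simp [vecMulVec_apply]
        ring
      have a2 : J * vecMulVec (c • v) r = -(c • vecMulVec r r) := by
        rw [mul_vecMulVec, mulVec_smul, hr]
        ext a b
        simp [vecMulVec_apply]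
        ring
      have a3 : c • vecMulVec r r * vecMulVec (c • v) r = 0 := by
        have : r ⬝ᵥ (c • v) = 0 := by
          rw [dotProduct_smul, hrd, ← dotProduct_mulVec, halt, smul_zero]
        rw [smul_mul, vecMulVec_mul_vecMulVec, this, zero_smul]
        ext a b
        simp
      rw [add_mul, one_mul, a1, mul_add, mul_one, add_mul, a2, a3]
      abel
    rw [show prodT (e :: L) = (1 + vecMulVec e.1 e.2) * prodT L by simp [prodT], transpose_mul]
    calc (prodT L)ᵀ * (1 + vecMulVec e.1 e.2)ᵀ * J * ((1 + vecMulVec e.1 e.2) * prodT L)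
        = (prodT L)ᵀ * ((1 + vecMulVec e.1 e.2)ᵀ * J * (1 + vecMulVec e.1 e.2)) * prodT L := by
          simp only [Matrix.mul_assoc]
      _ = J := by rw [h1]; exact ih fun x hx => hL x (List.mem_cons_of_mem _ hx)

end Vale.Agent.P165.EX
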