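import Vale.Agent.P165.EX.Multi.Main
import Vale.Agent.P165.EX.Phase
import Vale.Agent.P165.EX.Trans.Frames
import Vale.Agent.P165.EX.Trans.Moves

/-!
# A phase from transversality

Flat mass, bubble and children need only frames along which the sizes of all orders and finitely
many tests of order one add. So every infinite group with finite boxes whose image can make
finitely many pairs of subspaces transversal has a nonuniqueness phase.
-/

namespace Vale.Agent.P165.EX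

open Finset Matrix
open scoped Matrix.Norms.Elementwise

/-- One row of a frame as a test matrix. -/
def rowTest {k : Type} [Field k] {n : ℕ} (X : Matrix (Fin n) (Fin n) k) (i : Fin n) :
    Matrix (Fin n) (Fin n) k :=
  diagonal (fun a => if a = i then 1 else 0) * X

theorem norm_rowTest {k : Type} [NormedField k] {n : ℕ} (X Y : Matrix (Fin n) (Fin n) k)
    (i : Fin n) : ‖rowTest X i * Y‖ = ‖(X * Y) i‖ := by
  have e : ∀ a b, (rowTest X i * Y) a b = if a = i then (X * Y) i b else 0 := fun a b => by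
    rw [rowTest, Matrix.mul_assoc, diagonal_mul]
    split_ifs with h
    · rw [one_mul, h]
    · rw [zero_mul]
  refine le_antisymm ((Matrix.norm_le_iff (norm_nonneg _)).2 fun a b => ?_)
    ((pi_norm_le_iff_of_nonneg (norm_nonneg _)).2 fun b => ?_)
  · rw [e]
    split_ifs
    · exact norm_le_pi_norm _ b
    · simp
  · refine le_trans (le_of_eq ?_) (norm_entry_le_entrywise_sup_norm _ (i := i) (j := b))
    rw [e, if_pos rfl]

namespace Multi

open FF
open scoped MatrixGroups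

variable {P : Type} {k : P → Type} [∀ p, NontriviallyNormedField (k p)] {d : P → ℕ}
  {Γ : Type} [Group Γ] (ρ : ∀ p, Γ →* SL(d p, k p))

/-- Frames along which the sizes of all orders and tests of order one add at every place. -/
def Est : Prop :=
  ∀ q : ℕ, ∃ (F : Finset Γ) (A : ℝ), 0 ≤ A ∧
    ∀ (Q : ∀ p, Fin q → Matrix (Fin (d p)) (Fin (d p)) (k p)) (z h : Γ), ∃ σ ∈ F, ∀ p,
      (∀ j : Fin (d p + 1),
        |size (ρ p) j (z * σ * h) - size (ρ p) j z - size (ρ p) j h| ≤ A) ∧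
      ∀ i, Q p i ≠ 0 →
        |Real.log ‖Q p i * (ρ p (z * σ * h) : Matrix (Fin (d p)) (Fin (d p)) (k p))‖ -
          Real.log ‖Q p i * (ρ p z : Matrix (Fin (d p)) (Fin (d p)) (k p))‖ - lsize (ρ p) h| ≤ A

variable [Fintype P] [∀ p, ProperSpace (k p)] {O ι : Type} [DecidableEq Γ] [DecidableEq O]
  [Fintype ι] {G : SimpleGraph (Γ × O)} {nb : Γ × O → ι → Γ × O}

omit [∀ p, ProperSpace (k p)] in
/-- Candidates of one product carry bounded mass from every vertex. -/
theorem flat_mass_est [Fintype O] (hl : Labelling G nb) (hinv : Inv G) (hconn : G.Connected)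
    (hd : ∀ p, 0 < d p) (hest' : Est ρ) (hfin : BoxFinite ρ)
    {p₀ : ℝ} (hp : 0 < p₀) (hp1 : p₀ ≤ 1) (F : Finset Γ) (A : ℝ) :
    ∃ C : ℝ, 0 ≤ C ∧ ∀ q, p₀ ≤ q → q ≤ 1 → Witness nb q →
      ∀ (y : Γ) (w : Γ × O) (o' : O) (Z : Finset Γ), (∀ z ∈ Z, Cand ρ F A y z) →
        ∑ z ∈ Z, T nb q w (z, o') ≤ C := by
  classical
  set D₀ := ∑ p, d p with hD₀
  obtain ⟨F₁, A₁, hA₁, hest⟩ := hest' D₀
  choose Λ hΛ using fun p => exists_axis (ρ p) F A
  set Λ₀ : ℝ := ∑ p, |Λ p| with hΛ₀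
  have hΛ0 : 0 ≤ Λ₀ := sum_nonneg fun p _ => abs_nonneg _
  set D : ℝ := A₁ + 3 * Λ₀ with hD
  obtain ⟨N, hN⟩ := pack_ok ρ hfin F (|A| + Λ₀ + D₀ * (2 * D))
  obtain ⟨K, hK0, hK⟩ := mass_of_fibres hl hinv hconn hp hp1 F₁
  refine ⟨K * N, by positivity, fun q hq hq1 hw y w o' Z hZ => ?_⟩
  choose X hX hax using fun p => hΛ p y
  let tests : ∀ p, Fin D₀ → Matrix (Fin (d p)) (Fin (d p)) (k p) :=
    fun p i => if h : i.1 < d p then rowTest (X p) ⟨i.1, h⟩ else 0
  choose R hR using fun z h : Γ => hest tests z h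
  have h := hK q hq hq1 hw w o' Z (fun _ => 1) R N (Nat.cast_nonneg _) (fun _ => zero_le_one)
    (fun z h => (hR z h).1) fun y' Z' hsub hZ' => ?_
  · simpa using h
  rw [sum_const, nsmul_eq_mul, mul_one]
  refine Nat.cast_le.2 ?_
  set ℓ : ∀ p, Fin (d p) → ℝ := fun p i =>
    Real.log ‖rowTest (X p) i * (ρ p y' : Matrix (Fin (d p)) (Fin (d p)) (k p))‖ with hℓ
  set μ : P → ℝ := fun p => (∑ i, ℓ p i) / d p with hμ
  refine hN y (fun p j => ∑ i : Fin j,
    (ℓ p (Fin.castLE (Nat.le_of_lt_succ j.2) i) - μ p)) Z' fun z hz => ?_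
  obtain ⟨g, rfl⟩ := hZ' z hz
  have hc := hZ z (hsub hz)
  have hDpos : (0 : ℝ) ≤ D := by positivity
  constructor
  · obtain ⟨h', hh, hm⟩ := hc
    have hnD : 0 ≤ (D₀ : ℝ) * (2 * D) := by positivity
    exact ⟨h', hh, fun p j => (hm p j).trans (by linarith [le_abs_self A])⟩
  intro p
  set W : Fin (d p) → ℝ := fun i =>
    Real.log ‖(X p * (ρ p z : Matrix (Fin (d p)) (Fin (d p)) (k p))) i‖ with hW
  set t : ℝ := size (ρ p) 1 g with ht
  have hdD : d p ≤ D₀ := single_le_sum (fun p _ => Nat.zero_le (d p)) (mem_univ p)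
  have hne : ∀ i, rowTest (X p) i ≠ 0 := fun i h0 => by
    have e := norm_rowTest (X p) 1 i
    rw [h0, Matrix.zero_mul, norm_zero, Matrix.mul_one, eq_comm, norm_eq_zero] at e
    exact hX p (det_eq_zero_of_row_eq_zero i fun b => congrFun e b)
  have hrow : ∀ i, |ℓ p i - W i - t| ≤ A₁ := fun i => by
    have e : tests p ⟨i.1, i.2.trans_le hdD⟩ = rowTest (X p) i := dif_pos i.2
    have h1 := ((hR z g).2 p).2 ⟨i.1, i.2.trans_le hdD⟩ (e ▸ hne i)
    rw [e, norm_rowTest (X p) (ρ p z : Matrix (Fin (d p)) (Fin (d p)) (k p)) i, ← size_one] at h1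
    exact h1
  have hΛp : |Λ p| ≤ Λ₀ := single_le_sum (f := fun p => |Λ p|) (fun p _ => abs_nonneg _) (mem_univ p)
  have hsum : |∑ i, W i| ≤ Λ₀ := by
    have h1 := hax p z (hc.place ρ p) (d p) le_rfl
    have e : size (ρ p) (d p) z = 0 := by
      rw [size, cm, cmp_top, (ρ p z).2, norm_one, Real.log_one]
    rw [e, zero_sub, abs_neg] at h1
    simpa [hW] using h1.trans ((le_abs_self _).trans hΛp)
  have hn0 : (0 : ℝ) < d p := Nat.cast_pos.2 (hd p)
  have hn1 : (1 : ℝ) ≤ d p := Nat.one_le_cast.2 (hd p)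
  have ht' : |μ p - t| ≤ A₁ + Λ₀ := by
    have h1 : |∑ i, (ℓ p i - W i - t)| ≤ d p * A₁ :=
      (abs_sum_le_sum_abs _ _).trans ((sum_le_card_nsmul _ _ _ fun i _ => hrow i).trans_eq
        (by simp))
    rw [sum_sub_distrib, sum_sub_distrib, sum_const, card_univ, Fintype.card_fin,
      nsmul_eq_mul] at h1
    simp only [hμ]
    rw [div_sub' hn0.ne', abs_div, abs_of_pos hn0, div_le_iff₀ hn0]
    have h2 : (d p : ℝ) * A₁ + Λ₀ ≤ (A₁ + Λ₀) * d p := by nlinarith
    refine le_trans ?_ h2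
    calc |∑ i, ℓ p i - d p * t| = |(∑ i, ℓ p i - ∑ i, W i - d p * t) + ∑ i, W i| := by
          congr 1; ring
      _ ≤ _ := (abs_add_le _ _).trans (add_le_add h1 hsum)
  intro j
  have hj := hax p z (hc.place ρ p) j (Nat.le_of_lt_succ j.2)
  have hdd : |∑ i : Fin j, W (Fin.castLE (Nat.le_of_lt_succ j.2) i) -
      ∑ i : Fin j, (ℓ p (Fin.castLE (Nat.le_of_lt_succ j.2) i) - μ p)| ≤ D₀ * (2 * D) := by
    rw [← sum_sub_distrib]
    refine (abs_sum_le_sum_abs _ _).trans ((sum_le_card_nsmul _ _ (2 * D) fun i _ => ?_).trans ?_)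
    · have a1 := abs_le.1 (hrow (Fin.castLE (Nat.le_of_lt_succ j.2) i))
      have a2 := abs_le.1 ht'
      rw [abs_le, hD]
      constructor <;> linarith [a1.1, a1.2, a2.1, a2.2]
    · rw [nsmul_eq_mul, card_univ, Fintype.card_fin]
      exact mul_le_mul_of_nonneg_right
        (Nat.cast_le.2 ((Nat.le_of_lt_succ j.2).trans hdD)) (by positivity)
  refine (abs_sub_le _ _ _).trans ((add_le_add hj hdd).trans ?_)
  linarith [le_abs_self (Λ p), abs_nonneg A]

omit [∀ p, ProperSpace (k p)] in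
/-- The bubble is bounded. -/
theorem bubble_mass_est [Fintype O] (hl : Labelling G nb) (hinv : Inv G) (hconn : G.Connected)
    (hd : ∀ p, 0 < d p) (hest' : Est ρ) (hfin : BoxFinite ρ)
    {p₀ : ℝ} (hp : 0 < p₀) (hp1 : p₀ ≤ 1) :
    ∃ C : ℝ, ∀ q, p₀ ≤ q → q ≤ 1 → Witness nb q →
      ∀ (w : Γ × O) (o' : O) (Z : Finset Γ), ∑ z ∈ Z, T nb q w (z, o') ^ 2 ≤ C := by
  obtain ⟨F, A, hA, hest⟩ := hest' 0
  obtain ⟨C, hC0, hC⟩ := flat_mass_est ρ hl hinv hconn hd hest' hfin hp hp1 F A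
  obtain ⟨K, hK0, hK⟩ := mass_of_fibres hl hinv hconn hp hp1 F
  refine ⟨K * C, fun q hq hq1 hw w o' Z => ?_⟩
  choose R hR using fun z h : Γ => hest (fun _ i => i.elim0) z h
  simp only [pow_two]
  refine hK q hq hq1 hw w o' Z (fun z => T nb q w (z, o')) R C hC0
    (fun z => T_nonneg (hp.le.trans hq) hq1 _ _) (fun z h => (hR z h).1)
    fun y Z' _ hZ' => hC q hq hq1 hw y w o' Z' fun z hz => ?_
  obtain ⟨g, rfl⟩ := hZ' z hz
  exact ⟨g, ⟨R z g, (hR z g).1, rfl⟩, fun p j => ((hR z g).2 p).1 j⟩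

omit [Fintype P] [∀ p, ProperSpace (k p)] [DecidableEq Γ] in
/-- Children along one joint frame set keep the defects of `q` tests of order one at each place. -/
theorem exists_child_est (hd : ∀ p, 0 < d p) (hest' : Est ρ) (q : ℕ) :
    ∃ (F : Finset Γ) (A : ℝ), 0 ≤ A ∧
      ∀ (Q : ∀ p, Fin q → Matrix (Fin (d p)) (Fin (d p)) (k p)) (w h : Γ), ∃ σ ∈ F,
        Cand ρ F A (w * σ * h) w ∧ ∀ p,
          |lsize (ρ p) (w * σ * h) - lsize (ρ p) w - lsize (ρ p) h| ≤ A ∧
          ∀ i, Q p i ≠ 0 →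
            |defect (ρ p) (Q p i) (w * σ * h) - defect (ρ p) (Q p i) w| ≤ A := by
  obtain ⟨F, A, hA, hest⟩ := hest' q
  refine ⟨F, 2 * A, by positivity, fun Q w h => ?_⟩
  obtain ⟨σ, hσ, hs⟩ := hest Q w h
  refine ⟨σ, hσ, ⟨h, ⟨σ, hσ, rfl⟩, fun p j => ((hs p).1 j).trans (by linarith)⟩,
    fun p => ?_⟩
  have h1 : |size (ρ p) 1 (w * σ * h) - size (ρ p) 1 w - size (ρ p) 1 h| ≤ A :=
    (hs p).1 ⟨1, Nat.succ_lt_succ (hd p)⟩
  rw [size_one, size_one, size_one] at h1
  refine ⟨h1.trans (by linarith), fun i hi => ?_⟩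
  have h2 := (hs p).2 i hi
  simp only [defect]
  rw [abs_le] at h1 h2 ⊢
  constructor <;> linarith

/-- Small rows in finitely many windows. -/
theorem windowsBelow_est [Nonempty P] [Infinite Γ] [Fintype O] [Nonempty O] (ρ : ∀ p, Γ →* SL(d p, k p)) (hd : ∀ p, 0 < d p)
    (hest' : Est ρ) (hfin : BoxFinite ρ) (hl : Labelling G nb) (hinv : Inv G)
    (hconn : G.Connected) {p : ℝ} (hs : FQ.Sub nb p) : WindowsBelow nb p := by
  classical
  obtain ⟨o₁⟩ := ‹Nonempty O›
  have hh0 : 0 < p / 2 := by linarith [hs.1]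
  have hh1 : p / 2 ≤ 1 := by linarith [hs.1, hs.2.1]
  obtain ⟨F, A, hA, hchild⟩ := exists_child_est ρ hd hest' 2
  have hmaster : MasterRel nb o₁ (p / 2) F (Cand ρ F A) :=
    master_of_flat hl hinv hconn o₁ hh0 hh1 F (Cand ρ F A)
      (flat_mass_est ρ hl hinv hconn hd hest' hfin hh0 hh1 F A)
  obtain ⟨Cbub, hbub⟩ := bubble_mass_est ρ hl hinv hconn hd hest' hfin hh0 hh1
  have hpush : PushBelow nb o₁ p := fun ε hε => exists_push hl hinv o₁ hh0.le hs.2.1
    (fun q hq hq' => hbub q hq (hq'.le.trans hs.2.1) (hs.2.2 q (hh0.le.trans hq) hq')) hε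
  have hR : ∃ R : Γ → Γ → Γ, ∀ z h, R z h ∈ F ∧ Cand ρ F A (z * R z h * h) z := by
    choose R h1 h2 _ using hchild fun _ => 0
    exact ⟨R, fun z h => ⟨h1 z h, h2 z h⟩⟩
  obtain ⟨Cw, hCw, hwin⟩ := sz_window ρ hd hl hinv
  obtain ⟨Ce, hCe, hlow⟩ := energy_ge ρ hd
  obtain ⟨Cb, D, hCb, hcount⟩ := exists_count ρ hd hfin
  have hvol := exists_volume hl hinv hconn o₁ hs hpush hR hmaster
  have : Nonempty (State k d) := state_nonempty hd
  refine windowsBelow_of_parts (X := State k d) hl hs.1 hs.2.1 (sz := sz ρ) (En := energy ρ)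
    (C₀ := Cw + Ce) (add_nonneg hCw hCe) (fun x g => ?_) (energy_cocycle ρ)
    (fun m o hm z hz => (hwin m o hm z hz).trans
      (mul_le_mul_of_nonneg_right (le_add_of_nonneg_right hCe) (Nat.cast_nonneg _)))
    hvol (exists_small hl hinv hconn o₁ hs hpush hR hmaster hCb hcount hvol)
    (exists_bad ρ hd ⟨Cw, hCw, hwin⟩ hl hinv hconn o₁ hs hpush hA hchild hmaster hvol)
  exact (neg_le_neg (mul_le_mul_of_nonneg_right (le_add_of_nonneg_left hCw)
    (by linarith [sz_nonneg ρ g]))).trans (hlow x g)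

omit [Fintype P] [∀ p, ProperSpace (k p)] [DecidableEq Γ] in
/-- Frames and finite joint boxes give a phase to an infinite group. -/
theorem nonuniquePhase_of_est {P : Type} [Fintype P] [Nonempty P] {k : P → Type}
    [∀ p, NontriviallyNormedField (k p)] [∀ p, ProperSpace (k p)] {d : P → ℕ} (hd : ∀ p, 0 < d p)
    {Γ : Type} [Group Γ] [Infinite Γ] (ρ : ∀ p, Γ →* SL(d p, k p)) (hest : Est ρ)
    (hfin : BoxFinite ρ) : SG.NonuniquePhase Γ := by
  classical
  exact nonuniquePhase_of_windows fun O _ _ _ D G nb hl hinv hconn p hs =>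
    windowsBelow_est ρ hd hest hfin hl hinv hconn hs

end Multi

open scoped MatrixGroups

variable {k : Type} [NontriviallyNormedField k] {n : ℕ} {Γ : Type} [Group Γ]

/-- Density among products of transvections gives transversality. -/
theorem trans_of_moves (P : Moves k n) (ρ : Γ →* SL(n, k)) (hd : P.Dense ρ) : Trans ρ := by
  classical
  intro m deg A B hA hB
  by_contra hno
  push Not at hno
  obtain ⟨L, hL, hgood⟩ := exists_pairs P deg A B hA hB univ
  set X : Matrix (Fin n) (Fin n) (MvPolynomial (Fin n × Fin n) k) :=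
    Matrix.of fun a b => MvPolynomial.X (a, b)
  set f : Fin m → MvPolynomial (Fin n × Fin n) k := fun i =>
    ((A i).map (MvPolynomial.C : k →+* MvPolynomial (Fin n × Fin n) k) * X *
      (B i).map (MvPolynomial.C : k →+* MvPolynomial (Fin n × Fin n) k) :
        Matrix (Fin (deg i)) (Fin (deg i)) (MvPolynomial (Fin n × Fin n) k)).det with hf
  have hev : ∀ i (g : Matrix (Fin n) (Fin n) k),
      MvPolynomial.eval (fun e => g e.1 e.2) (f i) = (A i * g * B i).det := fun i g => by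
    rw [hf, RingHom.map_det, RingHom.mapMatrix_apply, Matrix.map_mul, Matrix.map_mul]
    congr 3 <;> (ext u v; simp [X])
  have hz := hd (∏ i, f i) (fun g => by
    obtain ⟨i, hi⟩ := hno g
    rw [map_prod]
    exact prod_eq_zero (mem_univ i) (by rw [hev]; exact hi)) L hL
  rw [map_prod] at hz
  obtain ⟨i, hi, h0⟩ := prod_eq_zero_iff.1 hz
  exact hgood i hi (by rw [← hev]; exact h0)

end Vale.Agent.P165.EX
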