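import Vale.Agent.P165.EX.Trans.Moves
import Vale.Agent.P165.EX.Instance
import Mathlib.LinearAlgebra.SymplecticGroup

/-!
# Density of symplectic groups among symplectic transvections

A Zariski dense subgroup of the standard symplectic group, and the points over any infinite subring,
are dense among the products of symplectic transvections; over a subring with finite balls the
points have finitely many elements in each box.
-/

namespace Vale.Agent.P165.EX

open Matrix Finset
open scoped MatrixGroups

variable {m : ℕ}

/-- The coordinates of the standard symplectic space. -/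
def spEquiv (m : ℕ) : Fin m ⊕ Fin m ≃ Fin (m + m) := finSumFinEquiv

/-- The standard alternating form in these coordinates. -/
def spForm (m : ℕ) (R : Type) [CommRing R] : Matrix (Fin (m + m)) (Fin (m + m)) R :=
  (J (Fin m) R).submatrix (spEquiv m).symm (spEquiv m).symm

theorem spForm_map {R S : Type} [CommRing R] [CommRing S] (φ : R →+* S) :
    (spForm m R).map φ = spForm m S := by
  rw [spForm, ← submatrix_map, map_J]; rfl

theorem spForm_transpose {R : Type} [CommRing R] : (spForm m R)ᵀ = -spForm m R := by
  rw [spForm, transpose_submatrix, J_transpose]; rfl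

theorem spForm_alt {R : Type} [CommRing R] (v : Fin (m + m) → R) :
    v ⬝ᵥ (spForm m R *ᵥ v) = 0 := by
  rw [spForm, submatrix_mulVec_equiv, Equiv.symm_symm, dotProduct_comp_equiv_symm]
  set w := v ∘ spEquiv m
  rw [← Sum.elim_comp_inl_inr w, J, fromBlocks_mulVec, sumElim_dotProduct_sumElim]
  simp [neg_mulVec, dotProduct_comm (w ∘ Sum.inl)]

theorem spForm_det (k : Type) [Field k] : (spForm m k).det ≠ 0 := by
  rw [spForm, det_submatrix_equiv_self]
  exact (isUnit_det_J (Fin m) k).ne_zero

/-- The symplectic transvections. -/
def spMoves (m : ℕ) (k : Type) [Field k] : Moves k (m + m) :=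
  formMoves (spForm m k) (spForm_det k) spForm_alt

/-- The symplectic group inside the special linear group. -/
def spToSL (m : ℕ) (R : Type) [CommRing R] : symplecticGroup (Fin m) R →* SL(m + m, R) where
  toFun A := ⟨A.1.submatrix (spEquiv m).symm (spEquiv m).symm, by
    rw [det_submatrix_equiv_self]; exact SymplecticGroup.det_eq_one A.2⟩
  map_one' := Subtype.ext (submatrix_one_equiv _)
  map_mul' A B := Subtype.ext (submatrix_mul_equiv _ _ _ _ _).symm

theorem spToSL_apply {R : Type} [CommRing R] (A : symplecticGroup (Fin m) R) (i j : Fin (m + m)) :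
    (spToSL m R A : Matrix (Fin (m + m)) (Fin (m + m)) R) i j =
      A.1 ((spEquiv m).symm i) ((spEquiv m).symm j) := rfl

theorem mem_sp_of_preserves {R : Type} [CommRing R] {g : Matrix (Fin (m + m)) (Fin (m + m)) R}
    (h : gᵀ * spForm m R * g = spForm m R) :
    g.submatrix (spEquiv m) (spEquiv m) ∈ symplecticGroup (Fin m) R := by
  have hJ : J (Fin m) R = (spForm m R).submatrix (spEquiv m) (spEquiv m) := by
    rw [spForm, submatrix_submatrix]
    simp
  rw [SymplecticGroup.mem_iff', hJ, transpose_submatrix, submatrix_mul_equiv, submatrix_mul_equiv,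
    h]

/-- Zariski density in the standard symplectic group gives density among the transvections. -/
theorem sp_dense {k : Type} [Field k] {Γ : Type} [Group Γ] (ρ : Γ →* symplecticGroup (Fin m) k)
    (hd : ∀ f : MvPolynomial ((Fin m ⊕ Fin m) × (Fin m ⊕ Fin m)) k,
      (∀ g, MvPolynomial.eval (fun e => (ρ g).1 e.1 e.2) f = 0) →
        ∀ a : symplecticGroup (Fin m) k, MvPolynomial.eval (fun e => a.1 e.1 e.2) f = 0) :
    (spMoves m k).Dense ((spToSL m k).comp ρ) := by
  intro f hf L hL
  have hmem := mem_sp_of_preserves (formMoves_preserves (spForm m k) (spForm_det k) spForm_alt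
    spForm_transpose hL)
  have h := hd (MvPolynomial.rename
    (fun e : Fin (m + m) × Fin (m + m) => ((spEquiv m).symm e.1, (spEquiv m).symm e.2)) f)
    (fun g => by rw [MvPolynomial.eval_rename]; exact hf g) ⟨_, hmem⟩
  rw [MvPolynomial.eval_rename] at h
  convert h using 3
  funext e
  simp

/-- The points over an infinite subring are dense among the transvections: a polynomial that
vanishes on them vanishes on every product, as one in the parameters of the product. -/
theorem sp_ring_dense {k : Type} [Field k] {R : Type} [CommRing R] [Infinite R] (φ : R →+* k)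
    (hφ : Function.Injective φ) :
    (spMoves m k).Dense ((SpecialLinearGroup.map φ).comp (spToSL m R)) := by
  intro f hf L hL
  set len := L.length
  have hget : ∀ i : Fin len, ∃ (c : k) (v : Fin (m + m) → k),
      (L.get i).1 = c • v ∧ (L.get i).2 = v ᵥ* spForm m k := fun i => hL _ (L.get_mem i)
  choose c v hu hw using hget
  let lst : (Fin len × Option (Fin (m + m)) → k) → List ((Fin (m + m) → k) × (Fin (m + m) → k)) := fun x =>
    List.ofFn fun i : Fin len =>
      (x (i, none) • (fun l => x (i, some l)), (fun l => x (i, some l)) ᵥ* spForm m k)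
  have hvalid : ∀ x, (spMoves m k).Valid (lst x) := fun x e he => by
    obtain ⟨i, rfl⟩ := List.mem_ofFn.1 he
    exact ⟨_, _, rfl, rfl⟩
  have hL' : lst (fun q => q.2.elim (c q.1) (v q.1)) = L := by
    conv_rhs => rw [← List.ofFn_get L]
    exact congrArg List.ofFn (funext fun i => Prod.ext (hu i).symm (hw i).symm)
  set Gp : Matrix (Fin (m + m)) (Fin (m + m)) (MvPolynomial (Fin len × Option (Fin (m + m))) k) :=
    (List.ofFn fun i : Fin len => 1 + vecMulVec
      ((MvPolynomial.X (i, none) : MvPolynomial (Fin len × Option (Fin (m + m))) k) • fun l => (MvPolynomial.X (i, some l) : MvPolynomial (Fin len × Option (Fin (m + m))) k))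
      ((fun l => (MvPolynomial.X (i, some l) : MvPolynomial (Fin len × Option (Fin (m + m))) k)) ᵥ* spForm m (MvPolynomial (Fin len × Option (Fin (m + m))) k))).prod with hGp
  have hev : ∀ x, Gp.map (MvPolynomial.eval x) = prodT (lst x) := fun x => by
    rw [hGp, ← RingHom.mapMatrix_apply, map_list_prod, List.map_ofFn, prodT, List.map_ofFn]
    refine congrArg List.prod (congrArg List.ofFn (funext fun i => ?_))
    ext a b
    simp [vecMulVec_apply, Matrix.one_apply, apply_ite (MvPolynomial.eval x), vecMul, dotProduct,
      map_sum, ← spForm_map (m := m) (MvPolynomial.eval x)]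
  set F : MvPolynomial (Fin len × Option (Fin (m + m))) k := MvPolynomial.bind₁ (fun e => Gp e.1 e.2) f with hF
  have hFev : ∀ x, MvPolynomial.eval x F =
      MvPolynomial.eval (fun e => prodT (lst x) e.1 e.2) f := fun x => by
    rw [hF, MvPolynomial.eval, MvPolynomial.eval₂Hom_bind₁, ← MvPolynomial.eval]
    refine congrArg (fun w => MvPolynomial.eval w f) (funext fun e => ?_)
    rw [← hev x]
    rfl
  suffices h : F = 0 by
    have h2 := hFev fun q => q.2.elim (c q.1) (v q.1)
    rw [h, map_zero, hL'] at h2
    exact h2.symm
  refine MvPolynomial.funext_set (fun _ => Set.range φ)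
    (fun _ => Set.infinite_range_of_injective hφ) fun x hx => ?_
  rw [map_zero, hFev]
  choose x₀ hx₀ using fun q => hx q (Set.mem_univ q)
  obtain rfl : φ ∘ x₀ = x := funext hx₀
  set g : Matrix (Fin (m + m)) (Fin (m + m)) R :=
    (List.ofFn fun i : Fin len => 1 + vecMulVec (x₀ (i, none) • fun l => x₀ (i, some l))
      ((fun l => x₀ (i, some l)) ᵥ* spForm m R)).prod with hg
  have hgmap : g.map φ = prodT (lst (φ ∘ x₀)) := by
    rw [hg, ← RingHom.mapMatrix_apply, map_list_prod, List.map_ofFn, prodT, List.map_ofFn]
    refine congrArg List.prod (congrArg List.ofFn (funext fun i => ?_))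
    ext a b
    simp [vecMulVec_apply, Matrix.one_apply, apply_ite φ, vecMul, dotProduct, map_sum,
      ← spForm_map (m := m) φ]
  have hpres : gᵀ * spForm m R * g = spForm m R := by
    refine Matrix.map_injective hφ ?_
    show (gᵀ * spForm m R * g).map φ = (spForm m R).map φ
    rw [Matrix.map_mul, Matrix.map_mul, transpose_map, spForm_map, hgmap]
    exact formMoves_preserves _ _ _ spForm_transpose (hvalid _)
  have h := hf ⟨_, mem_sp_of_preserves hpres⟩
  rw [← hgmap]
  convert h using 3
  funext e
  simp [spToSL_apply]

/-- The points over a subring with finite balls have finitely many elements in each box. -/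
theorem sp_ring_discrete {k : Type} [NontriviallyNormedField k] {R : Type} [CommRing R]
    (φ : R →+* k) (hfin : ∀ C : ℝ, {r : R | ‖φ r‖ ≤ C}.Finite) (C : ℝ) :
    {g : symplecticGroup (Fin m) R | ∀ i j, ‖(((SpecialLinearGroup.map φ).comp (spToSL m R)) g :
      Matrix (Fin (m + m)) (Fin (m + m)) k) i j‖ ≤ C}.Finite := by
  refine ((ringHom_discrete φ hfin C).preimage (f := spToSL m R) ?_).subset fun g hg => hg
  intro a _ b _ h
  refine Subtype.ext (Matrix.ext fun i j => ?_)
  have := congrFun (congrFun (congrArg Subtype.val h) (spEquiv m i)) (spEquiv m j)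
  simpa [spToSL_apply] using this

/-- The symplectic points over an infinite ring are infinite. -/
theorem sp_infinite (hm : 0 < m) (R : Type) [CommRing R] [Infinite R] :
    Infinite (symplecticGroup (Fin m) R) := by
  let f : R → symplecticGroup (Fin m) R := fun t =>
    ⟨fromBlocks 1 (t • (1 : Matrix (Fin m) (Fin m) R)) 0 1, SymplecticGroup.fromBlocks_mem_iff.2
      (by simp)⟩
  refine Infinite.of_injective f fun s t h => ?_
  have := congrFun (congrFun (congrArg Subtype.val h) (Sum.inl ⟨0, hm⟩)) (Sum.inr ⟨0, hm⟩)
  simpa [f] using this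

end Vale.Agent.P165.EX
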