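import Vale.Agent.P165.EX.Trans.Main

/-!
# A phase from transversality at several places

Transversality at each place alone gives it jointly: finitely many elements suffice at one place,
so translates of the conditions at the others leave room.
-/

namespace Vale.Agent.P165.EX

open Finset Matrix FF
open scoped Matrix.Norms.Elementwise MatrixGroups

namespace Multi

variable {P : Type} {k : P → Type} [∀ p, NontriviallyNormedField (k p)] [∀ p, ProperSpace (k p)]
  {d : P → ℕ} {Γ : Type} [Group Γ] (ρ : ∀ p, Γ →* SL(d p, k p))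

/-- Transversality at each place gives it at finitely many places at once. -/
theorem joint_trans (htr : ∀ p, Trans (ρ p)) (T : Finset P) :
    ∀ (κ : P → Type) [∀ p, Fintype (κ p)] (deg : ∀ p, κ p → ℕ)
      (A : ∀ p i, Matrix (Fin (deg p i)) (Fin (d p)) (k p))
      (B : ∀ p i, Matrix (Fin (d p)) (Fin (deg p i)) (k p)),
      (∀ p ∈ T, ∀ i, FullRow (A p i)) → (∀ p ∈ T, ∀ i, FullRow (B p i)ᵀ) →
        ∃ g, ∀ p ∈ T, ∀ i,
          (A p i * (ρ p g : Matrix (Fin (d p)) (Fin (d p)) (k p)) * B p i).det ≠ 0 := by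
  classical
  induction T using Finset.induction_on with
  | empty => intro κ _ deg A B _ _; exact ⟨1, by simp⟩
  | insert a T ha ih =>
    intro κ _ deg A B hA hB
    obtain ⟨F, hF⟩ := exists_syndetic (ρ a) (htr a) (deg a)
    have hinv : ∀ p (g : Γ), (ρ p g : Matrix (Fin (d p)) (Fin (d p)) (k p)) *
        (ρ p g⁻¹ : Matrix (Fin (d p)) (Fin (d p)) (k p)) = 1 :=
      fun p g => by rw [← EX.coe_mul, mul_inv_cancel, EX.coe_one]
    obtain ⟨y, hy⟩ := ih (fun p => κ p × {σ // σ ∈ F}) (fun p i => deg p i.1)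
      (fun p i => A p i.1 * (ρ p i.2.1 : Matrix (Fin (d p)) (Fin (d p)) (k p)))
      (fun p i => B p i.1)
      (fun p hp i => (hA p (mem_insert_of_mem hp) i.1).mul (hinv p i.2.1))
      (fun p hp i => hB p (mem_insert_of_mem hp) i.1)
    obtain ⟨σ, hσ, hs⟩ := hF (A a)
      (fun i => (ρ a y : Matrix (Fin (d a)) (Fin (d a)) (k a)) * B a i)
      (hA a (mem_insert_self a T)) fun i => by
        rw [transpose_mul]
        exact (hB a (mem_insert_self a T) i).mul
          (g' := (ρ a y⁻¹ : Matrix (Fin (d a)) (Fin (d a)) (k a))ᵀ)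
          (by rw [← transpose_mul, ← EX.coe_mul, inv_mul_cancel, EX.coe_one, transpose_one])
    refine ⟨σ * y, fun p hp i => ?_⟩
    rw [EX.coe_mul]
    rcases mem_insert.1 hp with rfl | hp
    · simpa only [Matrix.mul_assoc] using hs i
    · simpa only [Matrix.mul_assoc] using hy p hp (i, ⟨σ, hσ⟩)

/-- Transversality at each place gives joint frames. -/
theorem est_of_trans [Fintype P] (hd : ∀ p, 0 < d p) (htr : ∀ p, Trans (ρ p)) : Est ρ := by
  classical
  intro q
  let κ : P → Type := fun p => Fin (d p + 1) ⊕ Fin q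
  let deg : (Σ p, κ p) → ℕ := fun x => Sum.elim (fun j => j.1) (fun _ => 1) x.2
  obtain ⟨F, c, hc, hF⟩ := exists_frames_var (Γ := Γ) (E := fun x : Σ p, κ p => k x.1)
    (dim := fun x => d x.1) deg (fun x g => (ρ x.1 g : Matrix (Fin (d x.1)) (Fin (d x.1)) (k x.1)))
    (fun A B hA hB => by
      obtain ⟨g, hg⟩ := joint_trans ρ htr univ κ (fun p i => deg ⟨p, i⟩) (fun p i => A ⟨p, i⟩)
        (fun p i => B ⟨p, i⟩) (fun p _ i => hA ⟨p, i⟩) (fun p _ i => hB ⟨p, i⟩)
      exact ⟨g, fun x => hg x.1 (mem_univ _) x.2⟩)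
  set g₀ : Γ → ∀ p, ℕ → ℝ := fun σ p j =>
    (Fintype.card (Sub (d p) j) : ℝ) * ((Fintype.card (Sub (d p) j) : ℝ) * ‖cm (ρ p) j σ‖)
  have hg0 : ∀ σ p j, 0 ≤ g₀ σ p j := fun σ p j => by positivity
  set M : ℝ := 1 + ∑ σ ∈ F, ∑ p, ∑ j ∈ range (d p + 2), g₀ σ p j
  have hM : ∀ σ ∈ F, ∀ p, ∀ j < d p + 2, g₀ σ p j ≤ M := fun σ hσ p j hj =>
    ((single_le_sum (fun j _ => hg0 σ p j) (mem_range.2 hj)).trans
      ((single_le_sum (f := fun p => ∑ j ∈ range (d p + 2), g₀ σ p j)
        (fun p _ => sum_nonneg fun j _ => hg0 σ p j) (mem_univ p)).trans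
        (single_le_sum (f := fun σ => ∑ p, ∑ j ∈ range (d p + 2), g₀ σ p j)
          (fun σ _ => sum_nonneg fun p _ => sum_nonneg fun j _ => hg0 σ p j) hσ))).trans
      (le_add_of_nonneg_left zero_le_one)
  have hM1 : 1 ≤ M := le_add_of_nonneg_right
    (sum_nonneg fun σ _ => sum_nonneg fun p _ => sum_nonneg fun j _ => hg0 σ p j)
  refine ⟨F, |Real.log c| + Real.log M, add_nonneg (abs_nonneg _) (Real.log_nonneg hM1),
    fun Q z h => ?_⟩
  let R : ∀ x : Σ p, κ p, Matrix (Fin (d x.1)) (Fin (d x.1)) (k x.1) := fun x =>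
    Sum.elim (fun _ => 1) (fun i => if Q x.1 i = 0 then 1 else Q x.1 i) x.2
  have hdeg : ∀ x : Σ p, κ p, deg x ≤ d x.1 := by
    rintro ⟨p, j | i⟩
    exacts [Nat.le_of_lt_succ j.2, hd p]
  have hR0 : ∀ x : Σ p, κ p, cmp (deg x) (R x) ≠ 0 := by
    rintro ⟨p, j | i⟩
    · show cmp j.1 (1 : Matrix (Fin (d p)) (Fin (d p)) (k p)) ≠ 0
      have := sub_nonempty (Nat.le_of_lt_succ j.2)
      rw [cmp_one]; exact one_ne_zero
    · show cmp 1 (if Q p i = 0 then 1 else Q p i) ≠ 0
      intro e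
      have h1 := congrArg norm e
      rw [norm_cmp_one, norm_zero, norm_eq_zero] at h1
      have : Nonempty (Fin (d p)) := ⟨⟨0, hd p⟩⟩
      split_ifs at h1 with h0
      · exact one_ne_zero h1
      · exact h0 h1
  obtain ⟨σ, hσ, hs⟩ := hF
    (fun x => R x * (ρ x.1 z : Matrix (Fin (d x.1)) (Fin (d x.1)) (k x.1)))
    (fun x => (ρ x.1 h : Matrix (Fin (d x.1)) (Fin (d x.1)) (k x.1)))
    (fun x => by rw [cmp_mul]; exact test_ne (ρ x.1) (hR0 x) z)
    (fun x => norm_pos_iff.1 (norm_cm_pos (ρ x.1) (hdeg x) h))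
  have key : ∀ x : Σ p, κ p, |lev (ρ x.1) (cmp (deg x) (R x)) (z * σ * h) -
      lev (ρ x.1) (cmp (deg x) (R x)) z - size (ρ x.1) (deg x) h| ≤ |Real.log c| + Real.log M := by
    intro x
    refine slot_le (hdeg x) (hR0 x) hc hM1 (hM σ hσ x.1 (deg x) (by have := hdeg x; omega)) ?_
    have h1 := hs x
    simp only [cm, ← cmp_mul, EX.coe_mul, ← Matrix.mul_assoc] at h1 ⊢
    exact h1
  refine ⟨σ, hσ, fun p => ⟨fun j => ?_, fun i hi => ?_⟩⟩
  · have h1 := key ⟨p, Sum.inl j⟩
    simp only [deg, R, Sum.elim_inl, lev, cmp_one] at h1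
    erw [Matrix.one_mul, Matrix.one_mul] at h1
    exact h1
  · have h1 := key ⟨p, Sum.inr i⟩
    simp only [deg, R, Sum.elim_inr, if_neg hi, lev_one, size_one] at h1
    exact h1

/-- Transversality at each place and finite joint boxes give a phase to an infinite group. -/
theorem nonuniquePhase_of_trans [Fintype P] [Nonempty P] [Infinite Γ] (hd : ∀ p, 0 < d p)
    (htr : ∀ p, Trans (ρ p)) (hfin : BoxFinite ρ) : SG.NonuniquePhase Γ :=
  nonuniquePhase_of_est hd ρ (est_of_trans ρ hd htr) hfin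

end Multi

variable {k : Type} [NontriviallyNormedField k] {n : ℕ} {Γ : Type} [Group Γ]

/-- Transversality and finite boxes give a phase to an infinite group. -/
theorem nonuniquePhase_of_trans [ProperSpace k] [Infinite Γ] (hn : 0 < n) (ρ : Γ →* SL(n, k))
    (htr : Trans ρ)
    (hfin : ∀ R : ℝ, {g : Γ | ∀ i j, ‖(ρ g : Matrix (Fin n) (Fin n) k) i j‖ ≤ R}.Finite) :
    SG.NonuniquePhase Γ :=
  Multi.nonuniquePhase_of_trans (P := Unit) (k := fun _ => k) (d := fun _ => n) (fun _ => ρ)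
    (fun _ => hn) (fun _ => htr) fun R =>
      (finite_norm_of_boxes ρ hfin R).subset fun _ hg => hg ()

end Vale.Agent.P165.EX
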