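import Vale.Agent.P165.EX.Trans.Subspaces
import Mathlib.LinearAlgebra.Matrix.SchurComplement

/-!
# Transversality in special orthogonal groups

For a nondegenerate form without totally isotropic subspaces of half the dimension, one product of
an even number of reflections makes finitely many pairs of subspaces transversal: a reflection
raises the rank of a singular pairing, one more reflection repairs the parity, and products of
scaled reflections are polynomial in their vectors.
-/

namespace Vale.Agent.P165.EX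

open Matrix Finset
open scoped MatrixGroups

variable {k : Type} [Field k] {n : ℕ}

theorem det_one_add_vec {ι : Type} [Fintype ι] [DecidableEq ι] (u w : ι → k) :
    (1 + vecMulVec u w).det = 1 + w ⬝ᵥ u := by
  rw [vecMulVec_eq Unit, det_one_add_replicateCol_mul_replicateRow]

variable (Q : Matrix (Fin n) (Fin n) k)

/-- The quadratic form. -/
def qform (v : Fin n → k) : k := v ⬝ᵥ (Q *ᵥ v)

/-- The reflection along a vector. -/
def refl (v : Fin n → k) : Matrix (Fin n) (Fin n) k :=
  1 + vecMulVec ((-2 / qform Q v) • v) (Q *ᵥ v)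

/-- The product of the reflections of a list. -/
def prodR (L : List (Fin n → k)) : Matrix (Fin n) (Fin n) k := (L.map (refl Q)).prod

/-- Lists of anisotropic vectors. -/
def Aniso (L : List (Fin n → k)) : Prop := ∀ v ∈ L, qform Q v ≠ 0

theorem vecMulVec_refl (a b : Fin n → k) (v : Fin n → k) :
    refl Q v * vecMulVec a b = vecMulVec (refl Q v *ᵥ a) b := mul_vecMulVec _ _ _

theorem refl_mulVec_self {v : Fin n → k} (hv : qform Q v ≠ 0) : refl Q v *ᵥ v = -v := by
  ext i
  rw [refl, add_mulVec, one_mulVec, vecMulVec_mulVec]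
  simp only [Pi.add_apply, Pi.smul_apply, Pi.neg_apply, MulOpposite.smul_eq_mul_unop,
    MulOpposite.unop_op, smul_eq_mul]
  rw [show (Q *ᵥ v) ⬝ᵥ v = qform Q v from dotProduct_comm _ _]
  field_simp
  ring

theorem refl_mul_self {v : Fin n → k} (hv : qform Q v ≠ 0) : refl Q v * refl Q v = 1 := by
  nth_rewrite 2 [refl]
  rw [mul_add, mul_one, vecMulVec_refl, mulVec_smul, refl_mulVec_self Q hv, refl]
  ext i j
  simp [vecMulVec_apply]

theorem refl_det {v : Fin n → k} (hv : qform Q v ≠ 0) : (refl Q v).det = -1 := by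
  rw [refl, det_one_add_vec, dotProduct_smul, smul_eq_mul,
    show (Q *ᵥ v) ⬝ᵥ v = qform Q v from dotProduct_comm _ _, div_mul_cancel₀ _ hv]
  norm_num

theorem refl_preserves (hsym : Qᵀ = Q) {v : Fin n → k} (hv : qform Q v ≠ 0) :
    (refl Q v)ᵀ * Q * refl Q v = Q := by
  have h : (refl Q v)ᵀ * Q = Q * refl Q v := by
    rw [refl, transpose_add, transpose_one, transpose_vecMulVec, add_mul, one_mul, mul_add,
      mul_one, vecMulVec_mul, mul_vecMulVec, smul_vecMul, mulVec_smul, ← mulVec_transpose,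
      hsym]
    ext i j
    simp [vecMulVec_apply]
  rw [h, Matrix.mul_assoc, refl_mul_self Q hv, Matrix.mul_one]

theorem prodR_cons (v : Fin n → k) (L : List (Fin n → k)) :
    prodR Q (v :: L) = refl Q v * prodR Q L := rfl

theorem prodR_preserves (hsym : Qᵀ = Q) {L : List (Fin n → k)} (hL : Aniso Q L) :
    (prodR Q L)ᵀ * Q * prodR Q L = Q := by
  induction L with
  | nil => simp [prodR]
  | cons v L ih =>
    rw [prodR_cons, transpose_mul]
    calc (prodR Q L)ᵀ * (refl Q v)ᵀ * Q * (refl Q v * prodR Q L)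
        = (prodR Q L)ᵀ * ((refl Q v)ᵀ * Q * refl Q v) * prodR Q L := by
          simp only [Matrix.mul_assoc]
      _ = Q := by
          rw [refl_preserves Q hsym (hL v List.mem_cons_self)]
          exact ih fun x hx => hL x (List.mem_cons_of_mem _ hx)

theorem prodR_det {L : List (Fin n → k)} (hL : Aniso Q L) :
    (prodR Q L).det = (-1) ^ L.length := by
  induction L with
  | nil => simp [prodR]
  | cons v L ih =>
    rw [prodR_cons, det_mul, refl_det Q (hL v List.mem_cons_self),
      ih fun x hx => hL x (List.mem_cons_of_mem _ hx), List.length_cons, pow_succ']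

theorem prodR_pairs {e : Fin n → k} (he : qform Q e ≠ 0) (r : ℕ) (L : List (Fin n → k)) :
    prodR Q (List.replicate (2 * r) e ++ L) = prodR Q L := by
  induction r with
  | zero => rfl
  | succ r ih =>
    rw [show 2 * (r + 1) = 2 * r + 1 + 1 by ring, List.replicate_succ, List.replicate_succ,
      List.cons_append, List.cons_append, prodR_cons, prodR_cons, ← Matrix.mul_assoc,
      refl_mul_self Q he, Matrix.one_mul, ih]

theorem qform_add (a b : Fin n → k) (t : k) :
    qform Q (a + t • b) = qform Q a + t * (a ⬝ᵥ (Q *ᵥ b) + b ⬝ᵥ (Q *ᵥ a)) + t ^ 2 * qform Q b := by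
  simp only [qform, mulVec_add, mulVec_smul, add_dotProduct, dotProduct_add, smul_dotProduct,
    dotProduct_smul, smul_eq_mul]
  ring

/-- An anisotropic vector. -/
theorem exists_aniso (hsym : Qᵀ = Q) (h2 : (2 : k) ≠ 0) (hQ : Q.det ≠ 0) (hn : 0 < n) :
    ∃ e, qform Q e ≠ 0 := by
  by_contra! h
  have hbil : ∀ a b : Fin n → k, a ⬝ᵥ (Q *ᵥ b) = 0 := fun a b => by
    have e := qform_add Q a b 1
    have s : b ⬝ᵥ (Q *ᵥ a) = a ⬝ᵥ (Q *ᵥ b) := by
      rw [dotProduct_comm, dotProduct_mulVec, ← mulVec_transpose, hsym]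
    rw [h, h, h, s] at e
    have : (2 : k) * (a ⬝ᵥ (Q *ᵥ b)) = 0 := by linear_combination -e
    exact (mul_eq_zero.1 this).resolve_left h2
  refine hQ (exists_mulVec_eq_zero_iff.1 ⟨Pi.single ⟨0, hn⟩ 1, by simp, funext fun i => ?_⟩)
  simpa using hbil (Pi.single i 1) (Pi.single ⟨0, hn⟩ 1)

/-- A property of quadratic type failing somewhere fails at some anisotropic vector. -/
theorem exists_aniso_of_quadratic [Infinite k] {e : Fin n → k} (he : qform Q e ≠ 0)
    (H : Matrix (Fin n) (Fin n) k) {v : Fin n → k} (hv : qform H v ≠ 0) :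
    ∃ w, qform Q w ≠ 0 ∧ qform H w ≠ 0 := by
  let p : Matrix (Fin n) (Fin n) k → Polynomial k := fun M =>
    Polynomial.C (qform M v) + Polynomial.X * Polynomial.C (v ⬝ᵥ (M *ᵥ e) + e ⬝ᵥ (M *ᵥ v)) +
      Polynomial.X ^ 2 * Polynomial.C (qform M e)
  have hp : ∀ M t, (p M).eval t = qform M (v + t • e) := fun M t => by
    rw [qform_add]; simp [p]; ring
  have hQne : p Q ≠ 0 := fun h => he (by
    have := congrArg (fun f => Polynomial.coeff f 2) h
    simpa [p, Polynomial.coeff_X, Polynomial.coeff_C] using this)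
  have hHne : p H ≠ 0 := fun h => hv (by
    have h0 := hp H 0
    rw [h] at h0
    simpa using h0.symm)
  obtain ⟨t, ht⟩ : ∃ t : k, (p Q * p H).eval t ≠ 0 := by
    by_contra! h
    exact mul_ne_zero hQne hHne (Polynomial.eq_zero_of_infinite_isRoot _
      (Set.infinite_univ.mono fun x _ => h x))
  rw [Polynomial.eval_mul, hp, hp] at ht
  exact ⟨_, left_ne_zero_of_mul ht, right_ne_zero_of_mul ht⟩

variable [Infinite k] (hsym : Qᵀ = Q) (h2 : (2 : k) ≠ 0) (hQ : Q.det ≠ 0)
  (hiso : ∀ U : Submodule k (Fin n → k),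
    (∀ v ∈ U, v ⬝ᵥ (Q *ᵥ v) = 0) → 2 * Module.finrank k U < n)

include hsym h2 hQ hiso

/-- An even product of reflections pairs two full rank matrices nonsingularly. -/
theorem exists_even_pair {j : ℕ} (A : Matrix (Fin j) (Fin n) k) (B : Matrix (Fin n) (Fin j) k)
    (hA : FullRow A) (hB : FullRow Bᵀ) :
    ∃ L, Aniso Q L ∧ Even L.length ∧ (A * prodR Q L * B).det ≠ 0 := by
  classical
  have hn : 0 < n := by
    simpa using hiso ⊥ fun v hv => by rw [(Submodule.mem_bot k).1 hv]; simp
  obtain ⟨e, he⟩ := exists_aniso Q hsym h2 hQ hn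
  have hstep : ∀ (v : Fin n → k) (L : List (Fin n → k)),
      A * prodR Q (v :: L) * B = A * prodR Q L * B +
        vecMulVec ((-2 / qform Q v) • (A *ᵥ v)) ((Q *ᵥ v) ᵥ* (prodR Q L * B)) := by
    intro v L
    rw [prodR_cons, refl, ← mulVec_smul]
    simp only [Matrix.mul_add, Matrix.add_mul, Matrix.one_mul, ← mul_vecMulVec, ← vecMulVec_mul,
      Matrix.mul_assoc]
  have cons : ∀ {v : Fin n → k} {L}, qform Q v ≠ 0 → Aniso Q L → Aniso Q (v :: L) :=
    fun hv hL => List.forall_mem_cons.2 ⟨hv, hL⟩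
  -- full rank after some reflections
  obtain ⟨L, hL, hM⟩ : ∃ L, Aniso Q L ∧ (A * prodR Q L * B).det ≠ 0 := by
    suffices h : ∀ d L, Aniso Q L →
        Module.finrank k (LinearMap.ker (A * prodR Q L * B).mulVecLin) ≤ d →
          ∃ L', Aniso Q L' ∧ (A * prodR Q L' * B).det ≠ 0 from
      h _ [] (fun v hv => absurd hv List.not_mem_nil) le_rfl
    intro d
    induction d with
    | zero =>
      intro L hL hd
      refine ⟨L, hL, fun h0 => ?_⟩
      obtain ⟨y, hy, hMy⟩ := exists_mulVec_eq_zero_iff.2 h0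
      have := Submodule.finrank_eq_zero.1 (Nat.le_zero.1 hd)
      exact hy ((Submodule.mem_bot k).1 (this ▸ (LinearMap.mem_ker.2 hMy)))
    | succ d ih =>
      intro L hL hd
      by_cases h0 : (A * prodR Q L * B).det = 0
      swap
      · exact ⟨L, hL, h0⟩
      set g := prodR Q L
      obtain ⟨y, hy, hMy⟩ := exists_mulVec_eq_zero_iff.2 h0
      obtain ⟨x, hx, hxM⟩ := exists_vecMul_eq_zero_iff.2 h0
      have ha : x ᵥ* A ≠ 0 := by
        obtain ⟨s, hs⟩ := hA
        intro hh
        exact hs (exists_vecMul_eq_zero_iff.1 ⟨x, hx, funext fun l => congrFun hh (emb s l)⟩)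
      have hgdet : g.det ≠ 0 := by
        rw [prodR_det Q hL]; exact pow_ne_zero _ (neg_ne_zero.2 one_ne_zero)
      have hBy : B *ᵥ y ≠ 0 := by
        obtain ⟨s, hs⟩ := hB
        intro hh
        refine hs ?_
        rw [← transpose_submatrix, det_transpose]
        exact exists_mulVec_eq_zero_iff.1 ⟨y, hy, funext fun l => congrFun hh (emb s l)⟩
      set b := Q *ᵥ (g *ᵥ (B *ᵥ y))
      have hb : b ≠ 0 := fun hh => hBy (eq_zero_of_mulVec_eq_zero hgdet
        (eq_zero_of_mulVec_eq_zero hQ hh))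
      obtain ⟨w, hwa, hwb⟩ : ∃ w, (x ᵥ* A) ⬝ᵥ w ≠ 0 ∧ b ⬝ᵥ w ≠ 0 := by
        obtain ⟨i, hi⟩ := Function.ne_iff.1 ha
        obtain ⟨l, hl⟩ := Function.ne_iff.1 hb
        by_cases h1 : b i = 0
        · by_cases h3 : (x ᵥ* A) l = 0
          · exact ⟨Pi.single i 1 + Pi.single l 1, by simpa [dotProduct_add, h3] using hi,
              by simpa [dotProduct_add, h1] using hl⟩
          · exact ⟨Pi.single l 1, by simpa using h3, by simpa using hl⟩
        · exact ⟨Pi.single i 1, by simpa using hi, by simpa using h1⟩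
      have hH : ∀ u, qform (vecMulVec (x ᵥ* A) b) u = ((x ᵥ* A) ⬝ᵥ u) * (b ⬝ᵥ u) := fun u => by
        simp [qform, vecMulVec_mulVec, dotProduct_comm u, mul_comm]
      obtain ⟨v, hv, hv'⟩ := exists_aniso_of_quadratic Q he (vecMulVec (x ᵥ* A) b) (v := w)
        (by rw [hH]; exact mul_ne_zero hwa hwb)
      rw [hH] at hv'
      refine ih (v :: L) (cons hv hL) ?_
      set r := (Q *ᵥ v) ᵥ* (g * B)
      have hry : r ⬝ᵥ y ≠ 0 := by
        rw [← dotProduct_mulVec, ← mulVec_mulVec, dotProduct_comm, dotProduct_mulVec,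
          ← mulVec_transpose, hsym]
        exact right_ne_zero_of_mul hv'
      have hau : x ⬝ᵥ ((-2 / qform Q v) • (A *ᵥ v)) ≠ 0 := by
        rw [dotProduct_smul, dotProduct_mulVec, smul_eq_mul]
        exact mul_ne_zero (div_ne_zero (neg_ne_zero.2 h2) hv) (left_ne_zero_of_mul hv')
      have hsub : ∀ u, (A * prodR Q (v :: L) * B) *ᵥ u = 0 →
          r ⬝ᵥ u = 0 ∧ (A * g * B) *ᵥ u = 0 := by
        intro u hu
        rw [hstep, add_mulVec, show prodR Q L = g from rfl] at hu
        have e2 : vecMulVec ((-2 / qform Q v) • (A *ᵥ v)) r *ᵥ u =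
            (r ⬝ᵥ u) • ((-2 / qform Q v) • (A *ᵥ v)) := by
          rw [vecMulVec_mulVec]; ext i; simp [mul_comm]
        rw [e2] at hu
        have h1 := congrArg (x ⬝ᵥ ·) hu
        simp only [dotProduct_add, dotProduct_mulVec, hxM, zero_dotProduct, zero_add,
          dotProduct_zero] at h1
        rw [dotProduct_smul, smul_eq_mul] at h1
        have hr0 : r ⬝ᵥ u = 0 := (mul_eq_zero.1 h1).resolve_right hau
        rw [hr0, zero_smul, add_zero] at hu
        exact ⟨hr0, hu⟩
      have hlt : LinearMap.ker (A * prodR Q (v :: L) * B).mulVecLin <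
          LinearMap.ker (A * g * B).mulVecLin := by
        refine lt_of_le_of_ne (fun u hu => ?_) fun hh => ?_
        · exact LinearMap.mem_ker.2 (hsub u (LinearMap.mem_ker.1 hu)).2
        · have hy' : y ∈ LinearMap.ker (A * prodR Q (v :: L) * B).mulVecLin :=
            hh ▸ LinearMap.mem_ker.2 hMy
          exact hry (hsub y (LinearMap.mem_ker.1 hy')).1
      have := Submodule.finrank_lt_finrank_of_lt hlt
      omega
  rcases Nat.even_or_odd L.length with hev | hodd
  · exact ⟨L, hL, hev, hM⟩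
  -- repair the parity
  set g := prodR Q L
  set M := A * g * B with hMdef
  have hu : IsUnit M.det := isUnit_iff_ne_zero.2 hM
  set Pr := g * B * M⁻¹ * A with hPr
  have hstepdet : ∀ v : Fin n → k, (A * prodR Q (v :: L) * B).det =
      M.det * (1 + (-2 / qform Q v) * ((Q *ᵥ v) ⬝ᵥ (Pr *ᵥ v))) := fun v => by
    rw [hstep, show M + vecMulVec ((-2 / qform Q v) • (A *ᵥ v)) ((Q *ᵥ v) ᵥ* (g * B)) =
        M * (1 + vecMulVec (M⁻¹ *ᵥ ((-2 / qform Q v) • (A *ᵥ v))) ((Q *ᵥ v) ᵥ* (g * B))) by
      rw [Matrix.mul_add, Matrix.mul_one, mul_vecMulVec, mulVec_mulVec, mul_nonsing_inv _ hu,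
        one_mulVec], det_mul, det_one_add_vec, mulVec_smul, dotProduct_smul, smul_eq_mul,
      ← dotProduct_mulVec, hPr]
    simp only [mulVec_mulVec, Matrix.mul_assoc]
  set H := Q - (2 : k) • (Qᵀ * Pr) with hH
  have hHf : ∀ v, qform H v = qform Q v - 2 * ((Q *ᵥ v) ⬝ᵥ (Pr *ᵥ v)) := fun v => by
    simp only [qform, hH, sub_mulVec, smul_mulVec, dotProduct_sub, dotProduct_smul, smul_eq_mul,
      ← mulVec_mulVec]
    rw [dotProduct_mulVec v Qᵀ, vecMul_transpose]
  obtain ⟨w, hw⟩ : ∃ w, qform H w ≠ 0 := by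
    by_contra! h
    -- both the image and the kernel would be isotropic halves
    have him : ∀ c : Fin j → k, qform Q ((g * B) *ᵥ c) = 0 := fun c => by
      have hfix : Pr *ᵥ ((g * B) *ᵥ c) = (g * B) *ᵥ c := by
        rw [mulVec_mulVec, hPr]
        congr 1
        calc g * B * M⁻¹ * A * (g * B) = g * B * (M⁻¹ * M) := by
              simp only [hMdef, Matrix.mul_assoc]
          _ = _ := by rw [nonsing_inv_mul _ hu, Matrix.mul_one]
      have e1 := hHf ((g * B) *ᵥ c)
      rw [h, hfix, dotProduct_comm] at e1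
      change 0 = qform Q _ - 2 * qform Q _ at e1
      linear_combination e1
    have hker : ∀ v, A *ᵥ v = 0 → qform Q v = 0 := fun v hv => by
      have e1 := hHf v
      rw [h, hPr, ← mulVec_mulVec, hv, mulVec_zero, dotProduct_zero, mul_zero, sub_zero] at e1
      exact e1.symm
    have hinj : Function.Injective (g * B).mulVecLin := by
      refine (injective_iff_map_eq_zero _).2 fun c hc => eq_zero_of_mulVec_eq_zero hM ?_
      rw [hMdef, Matrix.mul_assoc, ← mulVec_mulVec, show (g * B) *ᵥ c = 0 from hc, mulVec_zero]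
    have hsurj : LinearMap.range A.mulVecLin = ⊤ := by
      refine LinearMap.range_eq_top.2 fun z => ⟨(g * B) *ᵥ (M⁻¹ *ᵥ z), ?_⟩
      rw [mulVecLin_apply, mulVec_mulVec, mulVec_mulVec, ← Matrix.mul_assoc A, ← hMdef,
        mul_nonsing_inv _ hu, one_mulVec]
    have h1 := hiso (LinearMap.range (g * B).mulVecLin) fun v hv => by
      obtain ⟨c, rfl⟩ := hv
      exact him c
    have h3 := hiso (LinearMap.ker A.mulVecLin) fun v hv => hker v (LinearMap.mem_ker.1 hv)
    have h4 := A.mulVecLin.finrank_range_add_finrank_ker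
    rw [hsurj, finrank_top] at h4
    rw [LinearMap.finrank_range_of_inj hinj] at h1
    simp only [Module.finrank_fin_fun] at h1 h4
    omega
  obtain ⟨v, hv, hv'⟩ := exists_aniso_of_quadratic Q he H hw
  refine ⟨v :: L, cons hv hL, ?_, ?_⟩
  · simpa [Nat.even_add_one] using hodd
  · rw [hstepdet]
    refine mul_ne_zero hM fun h0 => hv' ?_
    rw [hHf]
    field_simp at h0
    linear_combination h0

/-- One even product of reflections for finitely many pairs. -/
theorem exists_orth_pairs {m : ℕ} (deg : Fin m → ℕ)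
    (A : ∀ i, Matrix (Fin (deg i)) (Fin n) k) (B : ∀ i, Matrix (Fin n) (Fin (deg i)) k)
    (hA : ∀ i, FullRow (A i)) (hB : ∀ i, FullRow (B i)ᵀ) :
    ∃ g : Matrix (Fin n) (Fin n) k, gᵀ * Q * g = Q ∧ g.det = 1 ∧
      ∀ i, (A i * g * B i).det ≠ 0 := by
  classical
  have hn : 0 < n := by
    simpa using hiso ⊥ fun v hv => by rw [(Submodule.mem_bot k).1 hv]; simp
  obtain ⟨e, he⟩ := exists_aniso Q hsym h2 hQ hn
  choose L hL hev hgood using fun i =>
    exists_even_pair Q hsym h2 hQ hiso (A i) (B i) (hA i) (hB i)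
  set r := ∑ i, (L i).length / 2
  set N := 2 * r
  let pad : Fin m → List (Fin n → k) := fun i =>
    List.replicate (2 * (r - (L i).length / 2)) e ++ L i
  have hlen : ∀ i, (pad i).length = N := fun i => by
    have := single_le_sum (f := fun i => (L i).length / 2) (fun _ _ => Nat.zero_le _) (mem_univ i)
    have := Nat.two_mul_div_two_of_even (hev i)
    simp only [pad, List.length_append, List.length_replicate, N, r] at *
    omega
  have hpad : ∀ i, Aniso Q (pad i) := fun i v hv => by
    rcases List.mem_append.1 hv with h | h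
    · rw [List.eq_of_mem_replicate h]; exact he
    · exact hL i v h
  let pt : Fin m → Fin N × Fin n → k := fun i a => (pad i).getD a.1 e a.2
  let lst : (Fin N × Fin n → k) → List (Fin n → k) := fun x =>
    List.ofFn fun l => fun a => x (l, a)
  have hlst : ∀ i, lst (pt i) = pad i := fun i => by
    refine List.ext_getElem (by simp [lst, hlen]) fun l h1 h3 => ?_
    simp [lst, pt, List.getD_eq_getElem?_getD, h3]
  let QS : Matrix (Fin n) (Fin n) (MvPolynomial (Fin N × Fin n) k) := Q.map MvPolynomial.C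
  let qS : Fin N → MvPolynomial (Fin N × Fin n) k := fun l =>
    (fun a => MvPolynomial.X (l, a)) ⬝ᵥ (QS *ᵥ fun a => MvPolynomial.X (l, a))
  set Gp : Matrix (Fin n) (Fin n) (MvPolynomial (Fin N × Fin n) k) :=
    (List.ofFn fun l => qS l • (1 : Matrix (Fin n) (Fin n) (MvPolynomial (Fin N × Fin n) k)) -
      vecMulVec (fun a => 2 * MvPolynomial.X (l, a))
        (QS *ᵥ fun a => MvPolynomial.X (l, a))).prod with hGp
  have hq : ∀ x l, MvPolynomial.eval x (qS l) = qform Q fun a => x (l, a) := fun x l => by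
    simp [qS, QS, qform, dotProduct, mulVec, map_sum]
  have hev' : ∀ x, (∀ l, qform Q (fun a => x (l, a)) ≠ 0) →
      Gp.map (MvPolynomial.eval x) = (∏ l, qform Q fun a => x (l, a)) • prodR Q (lst x) := by
    intro x hx
    rw [hGp, ← RingHom.mapMatrix_apply, map_list_prod, List.map_ofFn]
    have hfac : ∀ (N' : ℕ) (c : Fin N' → k) (M : Fin N' → Matrix (Fin n) (Fin n) k),
        (List.ofFn fun l => c l • M l).prod = (∏ l, c l) • (List.ofFn M).prod := by
      intro N'
      induction N' with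
      | zero => simp
      | succ N' ih =>
        intro c M
        rw [List.ofFn_succ, List.ofFn_succ, List.prod_cons, List.prod_cons, ih, Fin.prod_univ_succ,
          smul_mul_smul_comm]
    rw [prodR, List.map_ofFn, ← hfac]
    refine congrArg List.prod (congrArg List.ofFn (funext fun l => ?_))
    ext a b
    have := hx l
    simp [refl, vecMulVec_apply, Matrix.one_apply, apply_ite (MvPolynomial.eval x), hq, QS,
      mulVec, dotProduct, map_sum]
    field_simp
    simp only [mul_ite, mul_one, mul_zero]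
    ring
  let p : Fin m → MvPolynomial (Fin N × Fin n) k := fun i =>
    ((A i).map (MvPolynomial.C : k →+* MvPolynomial (Fin N × Fin n) k) * Gp *
      (B i).map (MvPolynomial.C : k →+* MvPolynomial (Fin N × Fin n) k) :
        Matrix (Fin (deg i)) (Fin (deg i)) (MvPolynomial (Fin N × Fin n) k)).det
  have hp : ∀ i x, (∀ l, qform Q (fun a => x (l, a)) ≠ 0) → MvPolynomial.eval x (p i) =
      (∏ l, qform Q fun a => x (l, a)) ^ deg i * (A i * prodR Q (lst x) * B i).det := by
    intro i x hx
    have eA : ((A i).map (MvPolynomial.C : k →+* MvPolynomial (Fin N × Fin n) k)).map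
        (MvPolynomial.eval x) = A i := by ext u v; simp
    have eB : ((B i).map (MvPolynomial.C : k →+* MvPolynomial (Fin N × Fin n) k)).map
        (MvPolynomial.eval x) = B i := by ext u v; simp
    simp only [p]
    rw [RingHom.map_det, RingHom.mapMatrix_apply, Matrix.map_mul, Matrix.map_mul, eA, eB,
      hev' x hx, Matrix.mul_smul, Matrix.smul_mul, det_smul, Fintype.card_fin]
  have hptq : ∀ i l, qform Q (fun a => pt i (l, a)) ≠ 0 := fun i l => by
    refine hpad i _ ?_
    rw [← hlst i]
    exact List.mem_ofFn.2 ⟨l, rfl⟩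
  have hne : ∀ i, p i ≠ 0 := fun i h0 => by
    have h := hp i (pt i) (hptq i)
    rw [h0, map_zero, hlst, prodR_pairs Q he] at h
    exact mul_ne_zero (pow_ne_zero _ (prod_ne_zero_iff.2 fun l _ => hptq i l)) (hgood i) h.symm
  have hqne : ∀ l, qS l ≠ 0 := fun l h0 => by
    have h := hq (fun a => e a.2) l
    rw [h0, map_zero] at h
    exact he h.symm
  obtain ⟨x, hx⟩ : ∃ x, MvPolynomial.eval x ((∏ i, p i) * ∏ l, qS l) ≠ 0 := by
    by_contra! h
    refine mul_ne_zero (prod_ne_zero_iff.2 fun i (_ : i ∈ univ) => hne i)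
      (prod_ne_zero_iff.2 fun l (_ : l ∈ univ) => hqne l) (MvPolynomial.funext fun x => ?_)
    rw [h x, map_zero]
  rw [map_mul, map_prod, map_prod] at hx
  have hxq : ∀ l, qform Q (fun a => x (l, a)) ≠ 0 := fun l => by
    rw [← hq]; exact prod_ne_zero_iff.1 (right_ne_zero_of_mul hx) l (mem_univ _)
  have hlx : Aniso Q (lst x) := fun v hv => by
    obtain ⟨l, rfl⟩ := List.mem_ofFn.1 hv
    exact hxq l
  refine ⟨prodR Q (lst x), prodR_preserves Q hsym hlx, ?_, fun i => ?_⟩
  · rw [prodR_det Q hlx, List.length_ofFn]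
    exact (even_two_mul r).neg_one_pow
  · have h := prod_ne_zero_iff.1 (left_ne_zero_of_mul hx) i (mem_univ _)
    rw [hp i x hxq] at h
    exact right_ne_zero_of_mul h

omit hsym h2 hQ hiso

/-- A group dense in a special orthogonal group without isotropic halves has transversality. -/
theorem trans_of_orth {k : Type} [NontriviallyNormedField k] {Γ : Type} [Group Γ]
    (ρ : Γ →* SL(n, k)) (Q : Matrix (Fin n) (Fin n) k) (hsym : Qᵀ = Q) (h2 : (2 : k) ≠ 0)
    (hQ : Q.det ≠ 0)
    (hiso : ∀ U : Submodule k (Fin n → k),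
      (∀ v ∈ U, v ⬝ᵥ (Q *ᵥ v) = 0) → 2 * Module.finrank k U < n)
    (hd : ∀ f : MvPolynomial (Fin n × Fin n) k,
      (∀ g, MvPolynomial.eval (fun e => (ρ g : Matrix (Fin n) (Fin n) k) e.1 e.2) f = 0) →
        ∀ a : Matrix (Fin n) (Fin n) k, aᵀ * Q * a = Q → a.det = 1 →
          MvPolynomial.eval (fun e => a e.1 e.2) f = 0) :
    Trans ρ := by
  classical
  intro m deg A B hA hB
  by_contra hno
  push Not at hno
  obtain ⟨a, ha, had, hgood⟩ := exists_orth_pairs Q hsym h2 hQ hiso deg A B hA hB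
  let X : Matrix (Fin n) (Fin n) (MvPolynomial (Fin n × Fin n) k) :=
    Matrix.of fun u v => MvPolynomial.X (u, v)
  let f : Fin m → MvPolynomial (Fin n × Fin n) k := fun i =>
    ((A i).map (MvPolynomial.C : k →+* MvPolynomial (Fin n × Fin n) k) * X *
      (B i).map (MvPolynomial.C : k →+* MvPolynomial (Fin n × Fin n) k) :
        Matrix (Fin (deg i)) (Fin (deg i)) (MvPolynomial (Fin n × Fin n) k)).det
  have hev : ∀ i (g : Matrix (Fin n) (Fin n) k),
      MvPolynomial.eval (fun e => g e.1 e.2) (f i) = (A i * g * B i).det := fun i g => by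
    simp only [f]
    rw [RingHom.map_det, RingHom.mapMatrix_apply, Matrix.map_mul, Matrix.map_mul]
    congr 3 <;> (ext u v; simp [X])
  have hz := hd (∏ i, f i) (fun g => by
    obtain ⟨i, hi⟩ := hno g
    rw [map_prod]
    exact prod_eq_zero (mem_univ i) (by rw [hev]; exact hi)) a ha had
  rw [map_prod] at hz
  obtain ⟨i, -, h0⟩ := prod_eq_zero_iff.1 hz
  exact hgood i (by rw [← hev]; exact h0)

end Vale.Agent.P165.EX
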