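import Vale.Agent.P165.EX.Trans.Main
import Vale.Agent.P165.EX.Trans.Joint
import Vale.Agent.P165.EX.Trans.Orthogonal

/-!
# Dense subgroups of special orthogonal groups

A group with finitely many elements in each box and a Zariski dense homomorphism to a special
orthogonal group without totally isotropic subspaces of half the dimension has a nonuniqueness
phase.
-/

namespace Vale.Agent.P165.EX

open Matrix
open scoped MatrixGroups

theorem nonuniquePhase_orth {k : Type} [NontriviallyNormedField k] [ProperSpace k] {n : ℕ}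
    (hn : 2 ≤ n) {Γ : Type} [Group Γ] (ρ : Γ →* SL(n, k)) (Q : Matrix (Fin n) (Fin n) k)
    (hsym : Qᵀ = Q) (h2 : (2 : k) ≠ 0) (hQ : Q.det ≠ 0)
    (hiso : ∀ U : Submodule k (Fin n → k),
      (∀ v ∈ U, v ⬝ᵥ (Q *ᵥ v) = 0) → 2 * Module.finrank k U < n)
    (hd : ∀ f : MvPolynomial (Fin n × Fin n) k,
      (∀ g, MvPolynomial.eval (fun e => (ρ g : Matrix (Fin n) (Fin n) k) e.1 e.2) f = 0) →
        ∀ a : Matrix (Fin n) (Fin n) k, aᵀ * Q * a = Q → a.det = 1 →
          MvPolynomial.eval (fun e => a e.1 e.2) f = 0)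
    (hfin : ∀ R : ℝ, {g : Γ | ∀ i j, ‖(ρ g : Matrix (Fin n) (Fin n) k) i j‖ ≤ R}.Finite) :
    SG.NonuniquePhase Γ := by
  have htr := trans_of_orth ρ Q hsym h2 hQ hiso hd
  have := infinite_of_trans hn ρ htr
  exact nonuniquePhase_of_trans (by omega) ρ htr hfin

end Vale.Agent.P165.EX
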