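import Vale.Agent.P165.EX.Trans.Joint
import Vale.Agent.P165.EX.Trans.Density

/-!
# The integer symplectic groups

The integer points of the symplectic group in every degree are discrete and dense among the
symplectic transvections, so they have a nonuniqueness phase; so has every group with a Zariski
dense homomorphism to a symplectic group with finitely many elements in each box.
-/

namespace Vale.Agent.P165.EX

open Matrix
open scoped MatrixGroups

/-- The symplectic points over an infinite subring with finite balls. -/
theorem nonuniquePhase_sp_ring {m : ℕ} (hm : 0 < m) {k : Type} [NontriviallyNormedField k]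
    [ProperSpace k] {R : Type} [CommRing R] [Infinite R] (φ : R →+* k)
    (hφ : Function.Injective φ) (hfin : ∀ C : ℝ, {r : R | ‖φ r‖ ≤ C}.Finite) :
    SG.NonuniquePhase (symplecticGroup (Fin m) R) := by
  have := sp_infinite hm R
  exact nonuniquePhase_of_trans (by omega) _
    (trans_of_moves (spMoves m k) _ (sp_ring_dense φ hφ)) (sp_ring_discrete φ hfin)

/-- `Sp(2m, ℤ)` in every degree. -/
theorem nonuniquePhase_sp_int {m : ℕ} (hm : 0 < m) :
    SG.NonuniquePhase (symplecticGroup (Fin m) ℤ) :=
  nonuniquePhase_sp_ring hm (Int.castRingHom ℝ) Int.cast_injective int_balls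

/-- A group with a dense homomorphism to a symplectic group and finite boxes. -/
theorem nonuniquePhase_sp_dense {m : ℕ} (hm : 0 < m) {k : Type} [NontriviallyNormedField k]
    [ProperSpace k] {Γ : Type} [Group Γ] [Infinite Γ] (ρ : Γ →* symplecticGroup (Fin m) k)
    (hd : ∀ f : MvPolynomial ((Fin m ⊕ Fin m) × (Fin m ⊕ Fin m)) k,
      (∀ g, MvPolynomial.eval (fun e => (ρ g).1 e.1 e.2) f = 0) →
        ∀ a : symplecticGroup (Fin m) k, MvPolynomial.eval (fun e => a.1 e.1 e.2) f = 0)
    (hfin : ∀ R : ℝ, {g : Γ | ∀ i j, ‖(ρ g).1 i j‖ ≤ R}.Finite) :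
    SG.NonuniquePhase Γ := by
  refine nonuniquePhase_of_trans (by omega) _ (trans_of_moves (spMoves m k) _ (sp_dense ρ hd))
    fun R => (hfin R).subset fun g hg a b => ?_
  have h := hg (spEquiv m a) (spEquiv m b)
  simpa [spToSL_apply] using h

end Vale.Agent.P165.EX
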